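import Vale.Agent.P082.Defs

namespace Vale.Agent.P082

/-- Bounded `k`-linear maps `A^k → A` (`k`-cochains). -/
abbrev Cochain (A : Type*) [NormedRing A] [NormedAlgebra ℂ A] (k : ℕ) :=
  ContinuousMultilinearMap ℂ (fun _ : Fin k => A) A

/-- `g` is a primitive of `f` with constant `K`: `dg = f` and `‖g‖ ≤ K ‖f‖`. -/
def IsPrimitive {A : Type*} [NormedRing A] [NormedAlgebra ℂ A] {k : ℕ} (K : ℝ)
    (f : Cochain A (k + 1)) (g : Cochain A k) : Prop :=
  (∀ a, hochschild (fun x => g x) a = f a) ∧ ‖g‖ ≤ K * ‖f‖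

/-- `H_b^{k+1}(A,A) = 0` with constant `K`: every bounded `(k+1)`-cocycle `f` is the coboundary of
a bounded `k`-cochain `g` of norm at most `K ‖f‖`. -/
def VanishesWithConstant (A : Type*) [NormedRing A] [NormedAlgebra ℂ A] (k : ℕ) (K : ℝ) : Prop :=
  ∀ f : Cochain A (k + 1), (∀ a, hochschild (fun x => f x) a = 0) →
    ∃ g : Cochain A k, IsPrimitive K f g

universe u

section
variable {H : Type u} [NormedAddCommGroup H] [InnerProductSpace ℂ H] [CompleteSpace H]

/-- `H_b^{k+1}(M,M) = 0` for a von Neumann algebra `M` on `H`. -/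
def VNVanishes (M : VonNeumannAlgebra H) (k : ℕ) : Prop :=
  BoundedCohomologyVanishes M.toStarSubalgebra k

/-- `H_b^{k+1}(M,M) = 0` with constant `K` for a von Neumann algebra `M` on `H`. -/
def VNVanishesWith (M : VonNeumannAlgebra H) (k : ℕ) (K : ℝ) : Prop :=
  VanishesWithConstant M.toStarSubalgebra k K

end

end Vale.Agent.P082
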