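import Vale.Agent.P082.H304.Defs

namespace Vale.Agent.P082

/-- `‖df‖ ≤ c` for a bounded `k`-cochain `f`. -/
def DefectLE {A : Type*} [NormedRing A] [NormedAlgebra ℂ A] {k : ℕ} (f : Cochain A k) (c : ℝ) :
    Prop :=
  ∀ a, ‖hochschild (fun x => f x) a‖ ≤ c * ∏ i, ‖a i‖

/-- Approximate `(k+1)`-cocycles of `A` are near coboundaries, with constant `K`: for every bounded
`(k+1)`-cochain `f` with `‖df‖ ≤ c` there is a bounded `k`-cochain `g` with `‖g‖ ≤ K ‖f‖` and
`‖f - dg‖ ≤ K c`. -/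
def NearCoboundaries (A : Type*) [NormedRing A] [NormedAlgebra ℂ A] (k : ℕ) (K : ℝ) : Prop :=
  ∀ (f : Cochain A (k + 1)) (c : ℝ), 0 ≤ c → DefectLE f c →
    ∃ g : Cochain A k, ‖g‖ ≤ K * ‖f‖ ∧
      ∀ a, ‖f a - hochschild (fun x => g x) a‖ ≤ K * c * ∏ i, ‖a i‖

/-- Rigidity of the multiplication of `A`, with constants `ε` and `C`: every associative bounded
bilinear multiplication `m` on the Banach space `A` at distance at most `δ ≤ ε` from the given one
is transported to the given one by an invertible bounded operator `T` with `‖T - 1‖ ≤ C δ`. -/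
def RigidMultiplication (A : Type*) [NormedRing A] [NormedAlgebra ℂ A] (ε C : ℝ) : Prop :=
  ∀ m : A →L[ℂ] A →L[ℂ] A, (∀ a b c, m (m a b) c = m a (m b c)) →
    ∀ δ : ℝ, 0 ≤ δ → δ ≤ ε → (∀ a b, ‖m a b - a * b‖ ≤ δ * ‖a‖ * ‖b‖) →
      ∃ T : A ≃L[ℂ] A, (∀ a b, T (m a b) = T a * T b) ∧
        ‖(T : A →L[ℂ] A) - ContinuousLinearMap.id ℂ A‖ ≤ C * δ

universe u

section
variable {H : Type u} [NormedAddCommGroup H] [InnerProductSpace ℂ H] [CompleteSpace H]

/-- `NearCoboundaries` for a von Neumann algebra `M`. -/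
def VNNearCoboundaries (M : VonNeumannAlgebra H) (k : ℕ) (K : ℝ) : Prop :=
  NearCoboundaries M.toStarSubalgebra k K

/-- `RigidMultiplication` for a von Neumann algebra `M`. -/
def VNRigidMultiplication (M : VonNeumannAlgebra H) (ε C : ℝ) : Prop :=
  RigidMultiplication M.toStarSubalgebra ε C

end

end Vale.Agent.P082
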