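import Vale.Agent.P082.Defs

/-!
# Gluing cochains over an `ℓ^∞`-direct sum of normed algebras
-/

namespace Vale.Agent.P082.H304

universe u

/-- `A` is an `ℓ^∞`-direct sum of the algebras `A' j` -/
structure Glue (A' : ℕ → Type u) (A : Type u) [∀ j, NormedRing (A' j)]
    [∀ j, NormedAlgebra ℂ (A' j)] [NormedRing A] [NormedAlgebra ℂ A] where
  dn : ∀ j, A →L[ℂ] A' j
  up : ∀ j, A' j →L[ℂ] A
  glue : ∀ (a : ∀ j, A' j) (C : ℝ), (∀ j, ‖a j‖ ≤ C) → A
  norm_dn : ∀ j a, ‖dn j a‖ ≤ ‖a‖
  norm_up : ∀ j a, ‖up j a‖ ≤ ‖a‖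
  inj : ∀ a b, (∀ j, dn j a = dn j b) → a = b
  dn_glue : ∀ a C h j, dn j (glue a C h) = a j
  norm_glue : ∀ a C h, ‖glue a C h‖ ≤ C
  dn_up : ∀ j a, dn j (up j a) = a
  dn_mul : ∀ j a b, dn j (a * b) = dn j a * dn j b
  up_mul : ∀ j a b, up j (a * b) = up j a * up j b

variable {A' : ℕ → Type u} {A : Type u} [∀ j, NormedRing (A' j)]
    [∀ j, NormedAlgebra ℂ (A' j)] [NormedRing A] [NormedAlgebra ℂ A]

lemma update_map {B C : Type*} (φ : B → C) {n : ℕ} [DecidableEq (Fin n)] (x : Fin n → B)
    (i : Fin n) (c : B) :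
    (fun k => φ (Function.update x i c k)) = Function.update (fun k => φ (x k)) i (φ c) := by
  funext k
  rcases eq_or_ne k i with rfl | hk
  · simp
  · simp [hk]

/-- the glued values -/
noncomputable def Glue.val (D : Glue A' A) {n : ℕ}
    (f : ∀ j, ContinuousMultilinearMap ℂ (fun _ : Fin n => A' j) (A' j)) (C : ℝ)
    (h : ∀ j, ‖f j‖ ≤ C) (x : Fin n → A) : A :=
  D.glue (fun j => f j (fun i => D.dn j (x i))) (C * ∏ i, ‖x i‖) (fun j =>
        ((f j).le_opNorm _).trans (mul_le_mul (h j)
          (Finset.prod_le_prod (fun _ _ => norm_nonneg _) fun i _ => D.norm_dn j (x i))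
          (Finset.prod_nonneg fun _ _ => norm_nonneg _) ((norm_nonneg _).trans (h j))))

lemma Glue.dn_val (D : Glue A' A) {n : ℕ}
    (f : ∀ j, ContinuousMultilinearMap ℂ (fun _ : Fin n => A' j) (A' j)) (C : ℝ)
    (h : ∀ j, ‖f j‖ ≤ C) (x : Fin n → A) (j : ℕ) :
    D.dn j (D.val f C h x) = f j (fun i => D.dn j (x i)) := D.dn_glue _ _ _ j

/-- the direct sum of a bounded family of cochains -/
noncomputable def Glue.csum (D : Glue A' A) {n : ℕ}
    (f : ∀ j, ContinuousMultilinearMap ℂ (fun _ : Fin n => A' j) (A' j)) (C : ℝ)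
    (h : ∀ j, ‖f j‖ ≤ C) : ContinuousMultilinearMap ℂ (fun _ : Fin n => A) A :=
  MultilinearMap.mkContinuous
    { toFun := D.val f C h
      map_update_add' := fun {_} x i a b => by
        apply D.inj
        intro j
        rw [map_add, D.dn_val, D.dn_val, D.dn_val, update_map (D.dn j), update_map (D.dn j),
          update_map (D.dn j), map_add, ContinuousMultilinearMap.map_update_add]
      map_update_smul' := fun {_} x i c a => by
        apply D.inj
        intro j
        rw [map_smul, D.dn_val, D.dn_val, update_map (D.dn j), update_map (D.dn j), map_smul,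
          ContinuousMultilinearMap.map_update_smul] } C
    (fun x => D.norm_glue _ _ _)

lemma Glue.dn_csum (D : Glue A' A) {n : ℕ}
    (f : ∀ j, ContinuousMultilinearMap ℂ (fun _ : Fin n => A' j) (A' j)) (C : ℝ)
    (h : ∀ j, ‖f j‖ ≤ C) (x : Fin n → A) (j : ℕ) :
    D.dn j (D.csum f C h x) = f j (fun i => D.dn j (x i)) := D.dn_glue _ _ _ j

lemma neg_one_pow_mul' {B : Type*} [NormedRing B] [NormedAlgebra ℂ B] (n : ℕ) (y : B) :
    (-1 : B) ^ n * y = ((-1 : ℂ) ^ n) • y := by
  rcases Nat.even_or_odd n with h | h <;> simp [h.neg_one_pow]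

/-- the differential is natural for multiplicative maps -/
lemma hochschild_map {B C : Type*} [NormedRing B] [NormedAlgebra ℂ B] [NormedRing C]
    [NormedAlgebra ℂ C] (φ : B →L[ℂ] C) (hφ : ∀ x y, φ (x * y) = φ x * φ y) {k : ℕ}
    (f : (Fin k → B) → B) (g : (Fin k → C) → C) (hfg : ∀ x, φ (f x) = g (fun i => φ (x i)))
    (a : Fin (k + 1) → B) : φ (hochschild f a) = hochschild g (fun i => φ (a i)) := by
  have hc : ∀ j : Fin k, (fun i => φ (contract j a i)) = contract j (fun i => φ (a i)) := by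
    intro j
    funext i
    unfold contract
    split_ifs
    · rfl
    · exact hφ _ _
    · rfl
  unfold hochschild
  simp only [neg_one_pow_mul', map_add, map_sum, map_smul, hφ, hfg, hc]

lemma hochschild_smul {B : Type*} [NormedRing B] [NormedAlgebra ℂ B] {k : ℕ} (c : ℂ)
    (g : (Fin k → B) → B) (a : Fin (k + 1) → B) :
    hochschild (fun x => c • g x) a = c • hochschild g a := by
  unfold hochschild
  simp only [neg_one_pow_mul', mul_smul_comm, smul_add, Finset.smul_sum, smul_smul,
    smul_mul_assoc, mul_comm c]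

lemma hochschild_sub {B : Type*} [NormedRing B] [NormedAlgebra ℂ B] {k : ℕ}
    (f g : (Fin k → B) → B) (a : Fin (k + 1) → B) :
    hochschild (fun x => f x - g x) a = hochschild f a - hochschild g a := by
  unfold hochschild
  simp only [neg_one_pow_mul', mul_sub, smul_sub, Finset.sum_sub_distrib, sub_mul]
  abel

lemma hochschild_zero' {B : Type*} [NormedRing B] [NormedAlgebra ℂ B] {k : ℕ}
    (a : Fin (k + 1) → B) : hochschild (fun _ : Fin k → B => (0 : B)) a = 0 := by
  unfold hochschild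
  simp

lemma Glue.hochschild_csum (D : Glue A' A) {n : ℕ}
    (f : ∀ j, ContinuousMultilinearMap ℂ (fun _ : Fin n => A' j) (A' j)) (C : ℝ)
    (h : ∀ j, ‖f j‖ ≤ C) (a : Fin (n + 1) → A) (j : ℕ) :
    D.dn j (hochschild (fun x => D.csum f C h x) a)
      = hochschild (fun x => f j x) (fun i => D.dn j (a i)) :=
  hochschild_map (D.dn j) (D.dn_mul j) _ _ (fun x => D.dn_csum f C h x j) a

/-- a component of a cochain -/
noncomputable def Glue.comp (D : Glue A' A) {n : ℕ}
    (g : ContinuousMultilinearMap ℂ (fun _ : Fin n => A) A) (j : ℕ) :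
    ContinuousMultilinearMap ℂ (fun _ : Fin n => A' j) (A' j) :=
  (D.dn j).compContinuousMultilinearMap (g.compContinuousLinearMap (fun _ => D.up j))

lemma Glue.comp_apply (D : Glue A' A) {n : ℕ}
    (g : ContinuousMultilinearMap ℂ (fun _ : Fin n => A) A) (j : ℕ) (x : Fin n → A' j) :
    D.comp g j x = D.dn j (g (fun i => D.up j (x i))) := rfl

lemma Glue.norm_comp_le (D : Glue A' A) {n : ℕ}
    (g : ContinuousMultilinearMap ℂ (fun _ : Fin n => A) A) (j : ℕ) : ‖D.comp g j‖ ≤ ‖g‖ := by
  refine ContinuousMultilinearMap.opNorm_le_bound (norm_nonneg _) fun x => ?_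
  rw [D.comp_apply]
  refine (D.norm_dn _ _).trans ((g.le_opNorm _).trans ?_)
  exact mul_le_mul_of_nonneg_left (Finset.prod_le_prod (fun _ _ => norm_nonneg _)
    fun i _ => D.norm_up j (x i)) (norm_nonneg _)

/-- a component of a coboundary is the coboundary of the component -/
lemma Glue.hochschild_comp (D : Glue A' A) {n : ℕ}
    (g : ContinuousMultilinearMap ℂ (fun _ : Fin n => A) A) (j : ℕ) (a : Fin (n + 1) → A' j) :
    hochschild (fun x => D.comp g j x) a
      = D.dn j (hochschild (fun x => g x) (fun i => D.up j (a i))) := by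
  have hc : ∀ l : Fin n, (fun i => D.up j (contract l a i)) = contract l (fun i => D.up j (a i)) := by
    intro l
    funext i
    unfold contract
    split_ifs
    · rfl
    · exact D.up_mul j _ _
    · rfl
  unfold hochschild
  simp only [neg_one_pow_mul', map_add, map_sum, map_smul, D.dn_mul, D.dn_up, D.comp_apply, hc]

/-- vanishing for the direct sum bounds the primitives of a bounded family of cocycles -/
theorem Glue.bounded_primitives (D : Glue A' A) {k : ℕ} (hA : BoundedCohomologyVanishes A k)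
    (f : ∀ j, ContinuousMultilinearMap ℂ (fun _ : Fin (k + 1) => A' j) (A' j)) (C : ℝ)
    (h : ∀ j, ‖f j‖ ≤ C) (hf : ∀ j a, hochschild (fun x => f j x) a = 0) :
    ∃ K : ℝ, ∀ j, ∃ g : ContinuousMultilinearMap ℂ (fun _ : Fin k => A' j) (A' j),
      (∀ a, hochschild (fun x => g x) a = f j a) ∧ ‖g‖ ≤ K := by
  obtain ⟨g, hg⟩ := hA (D.csum f C h) (fun a => by
    apply D.inj
    intro j
    rw [D.hochschild_csum, hf, map_zero])
  refine ⟨‖g‖, fun j => ⟨D.comp g j, fun a => ?_, D.norm_comp_le g j⟩⟩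
  rw [D.hochschild_comp, hg, D.dn_csum]
  congr 1
  funext i
  exact D.dn_up j _

end Vale.Agent.P082.H304
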