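import Mathlib.Analysis.VonNeumannAlgebra.Basic
import Mathlib.Analysis.InnerProductSpace.l2Space
import Mathlib.Analysis.InnerProductSpace.Adjoint

/-!
# Block operators on a countable Hilbert sum
-/

open scoped InnerProductSpace ENNReal

namespace Vale.Agent.P082.H304

universe u

variable {G : ℕ → Type u} [∀ j, NormedAddCommGroup (G j)] [∀ j, InnerProductSpace ℂ (G j)]
  [∀ j, CompleteSpace (G j)]

/-- the inclusion of a summand -/
noncomputable def emb (G : ℕ → Type u) [∀ j, NormedAddCommGroup (G j)]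
    [∀ j, InnerProductSpace ℂ (G j)] (j : ℕ) : G j →L[ℂ] lp G 2 :=
  lp.singleContinuousLinearMap ℂ G 2 j

/-- the projection to a summand -/
noncomputable def ev (G : ℕ → Type u) [∀ j, NormedAddCommGroup (G j)]
    [∀ j, InnerProductSpace ℂ (G j)] (j : ℕ) : lp G 2 →L[ℂ] G j :=
  lp.evalCLM ℂ G 2 j

omit [∀ j, CompleteSpace (G j)] in
lemma emb_apply (j : ℕ) (v : G j) : emb G j v = lp.single 2 j v := rfl

omit [∀ j, CompleteSpace (G j)] in
lemma ev_apply (j : ℕ) (v : lp G 2) : ev G j v = v j := rfl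

omit [∀ j, CompleteSpace (G j)] in
lemma ev_emb (j : ℕ) (v : G j) : ev G j (emb G j v) = v := by
  rw [ev_apply, emb_apply, lp.single_apply_self]

omit [∀ j, CompleteSpace (G j)] in
lemma ev_emb_ne {j k : ℕ} (h : k ≠ j) (v : G j) : ev G k (emb G j v) = 0 := by
  rw [ev_apply, emb_apply, lp.single_apply_ne _ _ _ h]

omit [∀ j, CompleteSpace (G j)] in
lemma norm_emb (j : ℕ) (v : G j) : ‖emb G j v‖ = ‖v‖ := by
  rw [emb_apply, lp.norm_single (by norm_num)]

omit [∀ j, CompleteSpace (G j)] in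
lemma norm_ev_le (j : ℕ) (v : lp G 2) : ‖ev G j v‖ ≤ ‖v‖ := by
  rw [ev_apply]
  exact lp.norm_apply_le_norm (by norm_num) v j

omit [∀ j, CompleteSpace (G j)] in
/-- operators which agree on all summands are equal -/
lemma ext_emb {F : Type*} [NormedAddCommGroup F] [NormedSpace ℂ F] {x y : lp G 2 →L[ℂ] F}
    (h : ∀ j (v : G j), x (emb G j v) = y (emb G j v)) : x = y := by
  refine lp.ext_continuousLinearMap (by norm_num) fun j => ?_
  ext v
  exact h j v

omit [∀ j, CompleteSpace (G j)] in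
lemma ext_ev {v w : lp G 2} (h : ∀ j, ev G j v = ev G j w) : v = w := by
  apply lp.ext
  funext j
  exact h j

lemma adjoint_emb (j : ℕ) : ContinuousLinearMap.adjoint (emb G j) = ev G j := by
  symm
  rw [ContinuousLinearMap.eq_adjoint_iff]
  intro x y
  rw [ev_apply, emb_apply, lp.inner_single_right]

lemma adjoint_ev (j : ℕ) : ContinuousLinearMap.adjoint (ev G j) = emb G j := by
  rw [← adjoint_emb, ContinuousLinearMap.adjoint_adjoint]

/-- the block operator `E T E^*` -/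
noncomputable def blk (j : ℕ) (T : G j →L[ℂ] G j) : lp G 2 →L[ℂ] lp G 2 :=
  (emb G j).comp (T.comp (ev G j))

/-- the block `E^* x E` -/
noncomputable def cmp (j : ℕ) (x : lp G 2 →L[ℂ] lp G 2) : G j →L[ℂ] G j :=
  (ev G j).comp (x.comp (emb G j))

omit [∀ j, CompleteSpace (G j)] in
lemma blk_apply (j : ℕ) (T : G j →L[ℂ] G j) (v : lp G 2) :
    blk j T v = emb G j (T (ev G j v)) := rfl

omit [∀ j, CompleteSpace (G j)] in
lemma cmp_apply (j : ℕ) (x : lp G 2 →L[ℂ] lp G 2) (v : G j) :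
    cmp j x v = ev G j (x (emb G j v)) := rfl

lemma star_blk (j : ℕ) (T : G j →L[ℂ] G j) : star (blk j T) = blk j (star T) := by
  rw [ContinuousLinearMap.star_eq_adjoint, ContinuousLinearMap.star_eq_adjoint, blk, blk,
    ContinuousLinearMap.adjoint_comp, ContinuousLinearMap.adjoint_comp, adjoint_emb, adjoint_ev,
    ContinuousLinearMap.comp_assoc]

omit [∀ j, CompleteSpace (G j)] in
lemma norm_blk_le (j : ℕ) (T : G j →L[ℂ] G j) : ‖blk j T‖ ≤ ‖T‖ := by
  refine ContinuousLinearMap.opNorm_le_bound _ (norm_nonneg _) fun v => ?_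
  rw [blk_apply, norm_emb]
  exact (T.le_opNorm _).trans (mul_le_mul_of_nonneg_left (norm_ev_le j v) (norm_nonneg _))

omit [∀ j, CompleteSpace (G j)] in
lemma norm_cmp_le (j : ℕ) (x : lp G 2 →L[ℂ] lp G 2) : ‖cmp j x‖ ≤ ‖x‖ := by
  refine ContinuousLinearMap.opNorm_le_bound _ (norm_nonneg x) fun v => ?_
  rw [cmp_apply]
  refine (norm_ev_le _ _).trans ((x.le_opNorm _).trans ?_)
  rw [norm_emb]

omit [∀ j, CompleteSpace (G j)] in
lemma cmp_blk (j : ℕ) (T : G j →L[ℂ] G j) : cmp j (blk j T) = T := by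
  ext v
  rw [cmp_apply, blk_apply, ev_emb, ev_emb]

omit [∀ j, CompleteSpace (G j)] in
lemma blk_mul (j : ℕ) (T S : G j →L[ℂ] G j) : blk j (T * S) = blk j T * blk j S := by
  ext1 v
  rw [mul_apply_eq_comp, blk_apply, blk_apply, blk_apply, ev_emb]
  rfl

omit [∀ j, CompleteSpace (G j)] in
lemma blk_mul_ne {j k : ℕ} (h : k ≠ j) (T : G j →L[ℂ] G j) (S : G k →L[ℂ] G k) :
    blk j T * blk k S = 0 := by
  ext1 v
  rw [mul_apply_eq_comp, blk_apply, blk_apply, ev_emb_ne h.symm, map_zero, map_zero]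
  rfl

/-- `blk` as a linear map -/
noncomputable def blkL (j : ℕ) : (G j →L[ℂ] G j) →ₗ[ℂ] (lp G 2 →L[ℂ] lp G 2) where
  toFun := blk j
  map_add' := fun T S => by
    ext1 v
    exact map_add (emb G j) (T (ev G j v)) (S (ev G j v))
  map_smul' := fun c T => by
    ext1 v
    exact map_smul (emb G j) c (T (ev G j v))

/-- `cmp` as a linear map -/
noncomputable def cmpL (j : ℕ) : (lp G 2 →L[ℂ] lp G 2) →ₗ[ℂ] (G j →L[ℂ] G j) where
  toFun := cmp j
  map_add' := fun T S => by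
    ext1 v
    exact map_add (ev G j) (T (emb G j v)) (S (emb G j v))
  map_smul' := fun c T => by
    ext1 v
    exact map_smul (ev G j) c (T (emb G j v))

/-- the diagonal operator -/
noncomputable def diag (a : ∀ j, G j →L[ℂ] G j) (C : ℝ) (h : ∀ j, ‖a j‖ ≤ C) :
    lp G 2 →L[ℂ] lp G 2 :=
  LinearMap.mkContinuous
    { toFun := fun v => ⟨fun j => a j (v j), by
        have hv := (lp.memℓp v)
        have h2 : (0 : ℝ) < (2 : ℝ≥0∞).toReal := by norm_num
        have hs := (memℓp_gen_iff h2).1 hv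
        refine memℓp_gen ((hs.mul_left (C ^ (2 : ℝ≥0∞).toReal)).of_nonneg_of_le
          (fun j => Real.rpow_nonneg (norm_nonneg _) _) fun j => ?_)
        rw [← Real.mul_rpow ((norm_nonneg _).trans (h j)) (norm_nonneg _)]
        exact Real.rpow_le_rpow (norm_nonneg _) (((a j).le_opNorm _).trans
          (mul_le_mul_of_nonneg_right (h j) (norm_nonneg _))) (by norm_num)⟩
      map_add' := fun v w => by
        apply lp.ext
        funext j
        exact map_add (a j) _ _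
      map_smul' := fun c v => by
        apply lp.ext
        funext j
        exact map_smul (a j) _ _ } C (by
    intro v
    have h2 : (0 : ℝ) < (2 : ℝ≥0∞).toReal := by norm_num
    refine lp.norm_le_of_tsum_le h2 (mul_nonneg ((norm_nonneg _).trans (h 0)) (norm_nonneg _)) ?_
    have hs := (memℓp_gen_iff h2).1 (lp.memℓp v)
    have hC : 0 ≤ C := (norm_nonneg _).trans (h 0)
    have h1 : ∀ j, ‖a j (v j)‖ ^ (2 : ℝ≥0∞).toReal
        ≤ C ^ (2 : ℝ≥0∞).toReal * ‖v j‖ ^ (2 : ℝ≥0∞).toReal := by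
      intro j
      rw [← Real.mul_rpow hC (norm_nonneg _)]
      exact Real.rpow_le_rpow (norm_nonneg _) (((a j).le_opNorm _).trans
          (mul_le_mul_of_nonneg_right (h j) (norm_nonneg _))) (by norm_num)
    have hs2 : Summable fun j => ‖a j (v j)‖ ^ (2 : ℝ≥0∞).toReal :=
      (hs.mul_left (C ^ (2 : ℝ≥0∞).toReal)).of_nonneg_of_le
          (fun j => Real.rpow_nonneg (norm_nonneg _) _) h1
    refine (hs2.tsum_le_tsum h1 (hs.mul_left _)).trans ?_
    rw [tsum_mul_left, ← lp.norm_rpow_eq_tsum h2, ← Real.mul_rpow hC (norm_nonneg _)])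

omit [∀ j, CompleteSpace (G j)] in
lemma ev_diag (a : ∀ j, G j →L[ℂ] G j) (C : ℝ) (h : ∀ j, ‖a j‖ ≤ C) (j : ℕ) (v : lp G 2) :
    ev G j (diag a C h v) = a j (ev G j v) := rfl

omit [∀ j, CompleteSpace (G j)] in
lemma diag_emb (a : ∀ j, G j →L[ℂ] G j) (C : ℝ) (h : ∀ j, ‖a j‖ ≤ C) (j : ℕ) (v : G j) :
    diag a C h (emb G j v) = emb G j (a j v) := by
  apply ext_ev
  intro k
  rw [ev_diag]
  rcases eq_or_ne k j with rfl | hk
  · rw [ev_emb, ev_emb]
  · rw [ev_emb_ne hk, ev_emb_ne hk, map_zero]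

omit [∀ j, CompleteSpace (G j)] in
lemma norm_diag_le (a : ∀ j, G j →L[ℂ] G j) (C : ℝ) (h : ∀ j, ‖a j‖ ≤ C) :
    ‖diag a C h‖ ≤ C :=
  LinearMap.mkContinuous_norm_le _ ((norm_nonneg _).trans (h 0)) _

omit [∀ j, CompleteSpace (G j)] in
lemma cmp_diag (a : ∀ j, G j →L[ℂ] G j) (C : ℝ) (h : ∀ j, ‖a j‖ ≤ C) (j : ℕ) :
    cmp j (diag a C h) = a j := by
  ext v
  rw [cmp_apply, diag_emb, ev_emb]

end Vale.Agent.P082.H304
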