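import Vale.Agent.P082.H304.Square

/-!
# Stability of the multiplication of a Banach algebra (Newton iteration)
-/

namespace Vale.Agent.P082.H304

section

variable {A : Type*} [NormedRing A] [NormedAlgebra ℂ A]

/-- approximate 2-cocycles are near coboundaries -/
def Stab (A : Type*) [NormedRing A] [NormedAlgebra ℂ A] (K : ℝ) : Prop :=
  ∀ (f : A →L[ℂ] A →L[ℂ] A) (c : ℝ), 0 ≤ c →
    (∀ x y z, ‖x * f y z - f (x * y) z + f x (y * z) - f x y * z‖ ≤ c * (‖x‖ * ‖y‖ * ‖z‖)) →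
    ∃ g : A →L[ℂ] A, ‖g‖ ≤ K * ‖f‖ ∧
      ∀ x y, ‖f x y - (x * g y - g (x * y) + g x * y)‖ ≤ K * c * (‖x‖ * ‖y‖)

/-- a bilinear map as a 2-cochain -/
noncomputable def ofBil (f : A →L[ℂ] A →L[ℂ] A) :
    ContinuousMultilinearMap ℂ (fun _ : Fin 2 => A) A :=
  MultilinearMap.mkContinuous
    { toFun := fun x => f (x 0) (x 1)
      map_update_add' := fun {inst} x i a b => by
        obtain rfl : inst = instDecidableEqFin 2 := Subsingleton.elim _ _
        fin_cases i <;> simp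
      map_update_smul' := fun {inst} x i c a => by
        obtain rfl : inst = instDecidableEqFin 2 := Subsingleton.elim _ _
        fin_cases i <;> simp } ‖f‖
    (fun x => by
      rw [Fin.prod_univ_two, ← mul_assoc]
      exact f.le_opNorm₂ _ _)

lemma ofBil_apply (f : A →L[ℂ] A →L[ℂ] A) (x : Fin 2 → A) : ofBil f x = f (x 0) (x 1) := rfl

lemma norm_ofBil_le (f : A →L[ℂ] A →L[ℂ] A) : ‖ofBil f‖ ≤ ‖f‖ :=
  ContinuousMultilinearMap.opNorm_le_bound (norm_nonneg f) fun x => by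
    rw [Fin.prod_univ_two, ← mul_assoc]
    exact f.le_opNorm₂ _ _

lemma hochschild_ofBil (f : A →L[ℂ] A →L[ℂ] A) (a : Fin 3 → A) :
    hochschild (fun x => ofBil f x) a
      = a 0 * f (a 1) (a 2) - f (a 0 * a 1) (a 2) + f (a 0) (a 1 * a 2) - f (a 0) (a 1) * a 2 := by
  simp only [hochschild, ofBil_apply, Fin.sum_univ_two, contract]
  have h1 : (0 : Fin 2).succ = (1 : Fin 3) := rfl
  have h2 : (1 : Fin 2).succ = (2 : Fin 3) := rfl
  have h3 : (0 : Fin 2).castSucc = (0 : Fin 3) := rfl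
  have h4 : (1 : Fin 2).castSucc = (1 : Fin 3) := rfl
  have h5 : Fin.last 2 = (2 : Fin 3) := rfl
  have h6 : (-1 : A) ^ (2 + 1) = -1 := Odd.neg_one_pow (by decide)
  rw [h1, h2, h3, h4, h5, h6]
  simp
  abel

/-- a 1-cochain as an operator -/
noncomputable def toOp (g : ContinuousMultilinearMap ℂ (fun _ : Fin 1 => A) A) : A →L[ℂ] A :=
  LinearMap.mkContinuous (g.toMultilinearMap.toLinearMap (fun _ => 0) 0) ‖g‖ (fun x => by
    have h : Function.update (fun _ : Fin 1 => (0 : A)) 0 x = fun _ => x := by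
      funext i
      rw [Subsingleton.elim i 0]
      simp
    change ‖g (Function.update (fun _ : Fin 1 => (0 : A)) 0 x)‖ ≤ _
    rw [h]
    refine (g.le_opNorm _).trans (le_of_eq ?_)
    simp)

lemma toOp_apply (g : ContinuousMultilinearMap ℂ (fun _ : Fin 1 => A) A) (x : A) :
    toOp g x = g (fun _ => x) := by
  have h : Function.update (fun _ : Fin 1 => (0 : A)) 0 x = fun _ => x := by
    funext i
    rw [Subsingleton.elim i 0]
    simp
  change g (Function.update (fun _ : Fin 1 => (0 : A)) 0 x) = _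
  rw [h]

lemma norm_toOp_le (g : ContinuousMultilinearMap ℂ (fun _ : Fin 1 => A) A) : ‖toOp g‖ ≤ ‖g‖ :=
  LinearMap.mkContinuous_norm_le _ (norm_nonneg _) _

lemma hochschild_toOp (g : ContinuousMultilinearMap ℂ (fun _ : Fin 1 => A) A) (x y : A) :
    hochschild (fun z => g z) ![x, y] = x * toOp g y - toOp g (x * y) + toOp g x * y := by
  have h1 : (fun i : Fin 1 => (![x, y] : Fin 2 → A) i.succ) = fun _ => y := by
    funext i
    rw [Subsingleton.elim i 0]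
    rfl
  have h2 : (fun i : Fin 1 => (![x, y] : Fin 2 → A) i.castSucc) = fun _ => x := by
    funext i
    rw [Subsingleton.elim i 0]
    rfl
  have h3 : contract (0 : Fin 1) ![x, y] = fun _ => x * y := by
    funext i
    rw [Subsingleton.elim i 0]
    simp [contract]
  have h4 : (![x, y] : Fin 2 → A) (Fin.last 1) = y := rfl
  have h5 : (![x, y] : Fin 2 → A) 0 = x := rfl
  simp only [toOp_apply]
  unfold hochschild
  rw [h1, h2, h4, h5, Fin.sum_univ_one, h3]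
  simp
  abel

theorem stab_of_vanishing {K : ℝ} (hK : 0 ≤ K)
    (h1 : ∀ f : ContinuousMultilinearMap ℂ (fun _ : Fin 2 => A) A,
      (∀ a, hochschild (fun x => f x) a = 0) →
      ∃ g : ContinuousMultilinearMap ℂ (fun _ : Fin 1 => A) A,
        (∀ a, hochschild (fun x => g x) a = f a) ∧ ‖g‖ ≤ K * ‖f‖)
    (h2 : ∀ f : ContinuousMultilinearMap ℂ (fun _ : Fin 3 => A) A,
      (∀ a, hochschild (fun x => f x) a = 0) →
      ∃ g : ContinuousMultilinearMap ℂ (fun _ : Fin 2 => A) A,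
        (∀ a, hochschild (fun x => g x) a = f a) ∧ ‖g‖ ≤ K * ‖f‖) :
    Stab A (K * (1 + K * 4)) := by
  intro f c hc0 hf
  obtain ⟨g, hg, hgf⟩ := approx_of_vanishing hK h1 h2 (ofBil f) c (fun a => by
    rw [hochschild_ofBil]
    refine (hf _ _ _).trans (le_of_eq ?_)
    rw [Fin.prod_univ_three]) hc0
  refine ⟨toOp g, ?_, fun x y => ?_⟩
  · refine (norm_toOp_le g).trans (hg.trans ?_)
    have h3 : (((1 : ℕ) : ℝ) + 3) = 4 := by norm_num
    rw [h3]
    exact mul_le_mul_of_nonneg_left (norm_ofBil_le f) (by positivity)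
  · have h4 := hgf ![x, y]
    rw [hochschild_toOp, ofBil_apply, Fin.prod_univ_two] at h4
    have h5 : K * c * (‖x‖ * ‖y‖) ≤ K * (1 + K * 4) * c * (‖x‖ * ‖y‖) := by
      have h6 : K ≤ K * (1 + K * 4) := by nlinarith [mul_nonneg hK hK]
      have h7 : 0 ≤ c * (‖x‖ * ‖y‖) := by positivity
      nlinarith
    exact h4.trans h5

/-- the Newton step -/
theorem newton_step {K : ℝ} (hK : 1 ≤ K) (hst : Stab A K) (m : A →L[ℂ] A →L[ℂ] A)
    (hm : ∀ a b c, m (m a b) c = m a (m b c)) (S R : A →L[ℂ] A) (hSR : ∀ x, S (R x) = x)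
    (hRS : ∀ x, R (S x) = x) (hS : ‖S‖ ≤ 3 / 2) (hR : ‖R‖ ≤ 2) (e : ℝ) (he : 0 ≤ e)
    (hdef : ∀ a b, ‖S (m a b) - S a * S b‖ ≤ e * (‖a‖ * ‖b‖)) :
    ∃ S' : A →L[ℂ] A, ‖S' - S‖ ≤ 6 * K * e ∧
      ∀ a b, ‖S' (m a b) - S' a * S' b‖ ≤ 144 * K ^ 2 * e ^ 2 * (‖a‖ * ‖b‖) := by
  have hK0 : 0 ≤ K := by linarith
  -- the perturbed product is `x y + f x y`
  obtain ⟨f, hf⟩ : ∃ f : A →L[ℂ] A →L[ℂ] A, ∀ x y, f x y = S (m (R x) (R y)) - x * y :=
    ⟨(ContinuousLinearMap.compL ℂ A A A S).comp (m.bilinearComp R R)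
      - ContinuousLinearMap.mul ℂ A, fun x y => rfl⟩
  have hfb : ∀ x y, ‖f x y‖ ≤ 4 * e * (‖x‖ * ‖y‖) := by
    intro x y
    have h1 := hdef (R x) (R y)
    rw [hSR, hSR, ← hf] at h1
    have h2 : ‖R x‖ ≤ 2 * ‖x‖ := R.le_of_opNorm_le hR x
    have h3 : ‖R y‖ ≤ 2 * ‖y‖ := R.le_of_opNorm_le hR y
    calc ‖f x y‖ ≤ e * (‖R x‖ * ‖R y‖) := h1
      _ ≤ e * ((2 * ‖x‖) * (2 * ‖y‖)) := by gcongr
      _ = 4 * e * (‖x‖ * ‖y‖) := by ring
  have hfn : ‖f‖ ≤ 4 * e := f.opNorm_le_bound₂ (by positivity) fun x y => by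
    rw [mul_assoc]
    exact hfb x y
  -- associativity
  have hass : ∀ x y z, x * f y z - f (x * y) z + f x (y * z) - f x y * z
      = f (f x y) z - f x (f y z) := by
    intro x y z
    have hmu : ∀ x y, S (m (R x) (R y)) = x * y + f x y := fun x y => by
      rw [hf]
      abel
    have h1 : S (m (R (x * y + f x y)) (R z)) = S (m (R x) (R (y * z + f y z))) := by
      rw [← hmu x y, ← hmu y z, hRS, hRS, hm]
    rw [hmu, hmu, add_mul, mul_add, map_add, map_add, ContinuousLinearMap.add_apply,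
      mul_assoc] at h1
    have h2 : x * f y z - f (x * y) z + f x (y * z) - f x y * z - (f (f x y) z - f x (f y z))
        = (x * (y * z) + x * f y z + (f x (y * z) + f x (f y z)))
          - (x * (y * z) + f x y * z + (f (x * y) z + f (f x y) z)) := by abel
    rw [← sub_eq_zero, h2, h1, sub_self]
  obtain ⟨g, hg, hgf⟩ := hst f (32 * e ^ 2) (by positivity) (fun x y z => by
    rw [hass]
    have h1 : ‖f (f x y) z‖ ≤ 4 * e * ((4 * e * (‖x‖ * ‖y‖)) * ‖z‖) :=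
      (hfb _ _).trans (by gcongr; exact hfb x y)
    have h2 : ‖f x (f y z)‖ ≤ 4 * e * (‖x‖ * (4 * e * (‖y‖ * ‖z‖))) :=
      (hfb _ _).trans (by gcongr; exact hfb y z)
    refine (norm_sub_le _ _).trans ((add_le_add h1 h2).trans (le_of_eq ?_))
    ring)
  have hgn : ‖g‖ ≤ 4 * K * e := hg.trans (by nlinarith)
  have hgx : ∀ x, ‖g x‖ ≤ 4 * K * e * ‖x‖ := fun x => g.le_of_opNorm_le hgn x
  refine ⟨S + g.comp S, ?_, fun a b => ?_⟩
  · have h1 : S + g.comp S - S = g.comp S := by abel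
    rw [h1]
    calc ‖g.comp S‖ ≤ ‖g‖ * ‖S‖ := g.opNorm_comp_le S
      _ ≤ (4 * K * e) * (3 / 2) := by gcongr
      _ = 6 * K * e := by ring
  · have hx : ∀ a, (S + g.comp S) a = S a + g (S a) := fun a => rfl
    set x := S a with hxa
    set y := S b with hyb
    have h1 : S (m a b) = x * y + f x y := by
      rw [hf, hxa, hyb, hRS, hRS]
      abel
    have h2 : (S + g.comp S) (m a b) - (S + g.comp S) a * (S + g.comp S) b
        = (f x y - (x * g y - g (x * y) + g x * y)) + g (f x y) - g x * g y := by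
      rw [hx, hx, hx, h1, map_add, ← hxa, ← hyb]
      noncomm_ring
    rw [h2]
    have h3 : ‖g (f x y)‖ ≤ 4 * K * e * (4 * e * (‖x‖ * ‖y‖)) :=
      (hgx _).trans (by gcongr; exact hfb x y)
    have h4 : ‖g x * g y‖ ≤ (4 * K * e * ‖x‖) * (4 * K * e * ‖y‖) :=
      (norm_mul_le _ _).trans (by gcongr <;> exact hgx _)
    have h5 : ‖x‖ ≤ 3 / 2 * ‖a‖ := S.le_of_opNorm_le hS a
    have h6 : ‖y‖ ≤ 3 / 2 * ‖b‖ := S.le_of_opNorm_le hS b
    have h7 : ‖x‖ * ‖y‖ ≤ 9 / 4 * (‖a‖ * ‖b‖) := by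
      calc ‖x‖ * ‖y‖ ≤ (3 / 2 * ‖a‖) * (3 / 2 * ‖b‖) := by gcongr
        _ = 9 / 4 * (‖a‖ * ‖b‖) := by ring
    have h8 : ‖(f x y - (x * g y - g (x * y) + g x * y)) + g (f x y) - g x * g y‖
        ≤ K * (32 * e ^ 2) * (‖x‖ * ‖y‖) + 4 * K * e * (4 * e * (‖x‖ * ‖y‖))
          + (4 * K * e * ‖x‖) * (4 * K * e * ‖y‖) :=
      (norm_sub_le _ _).trans (add_le_add ((norm_add_le _ _).trans
        (add_le_add (hgf x y) h3)) h4)
    refine h8.trans ?_
    have h9 : K * (32 * e ^ 2) * (‖x‖ * ‖y‖) + 4 * K * e * (4 * e * (‖x‖ * ‖y‖))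
          + (4 * K * e * ‖x‖) * (4 * K * e * ‖y‖)
        = (48 * K + 16 * K ^ 2) * e ^ 2 * (‖x‖ * ‖y‖) := by ring
    rw [h9]
    have h10 : 48 * K + 16 * K ^ 2 ≤ 64 * K ^ 2 := by nlinarith
    calc (48 * K + 16 * K ^ 2) * e ^ 2 * (‖x‖ * ‖y‖)
        ≤ (64 * K ^ 2) * e ^ 2 * (9 / 4 * (‖a‖ * ‖b‖)) := by gcongr
      _ = 144 * K ^ 2 * e ^ 2 * (‖a‖ * ‖b‖) := by ring

/-- operators near the identity are invertible -/
lemma exists_equiv [CompleteSpace A] (S : A →L[ℂ] A)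
    (hS : ‖S - ContinuousLinearMap.id ℂ A‖ ≤ 1 / 2) :
    ∃ T : A ≃L[ℂ] A, ∀ x, T x = S x := by
  have h1 : ‖(1 : A →L[ℂ] A) - S‖ < 1 := by
    rw [norm_sub_rev]
    exact lt_of_le_of_lt hS (by norm_num)
  refine ⟨ContinuousLinearEquiv.ofUnit (Units.oneSub ((1 : A →L[ℂ] A) - S) h1), fun x => ?_⟩
  change ((1 : A →L[ℂ] A) - ((1 : A →L[ℂ] A) - S)) x = S x
  rw [sub_sub_cancel]

/-- one step of the iteration for operators near the identity -/
theorem newton_step' [CompleteSpace A] {K : ℝ} (hK : 1 ≤ K) (hst : Stab A K)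
    (m : A →L[ℂ] A →L[ℂ] A) (hm : ∀ a b c, m (m a b) c = m a (m b c)) (S : A →L[ℂ] A)
    (hS : ‖S - ContinuousLinearMap.id ℂ A‖ ≤ 1 / 2) (e : ℝ) (he : 0 ≤ e)
    (hdef : ∀ a b, ‖S (m a b) - S a * S b‖ ≤ e * (‖a‖ * ‖b‖)) :
    ∃ S' : A →L[ℂ] A, ‖S' - S‖ ≤ 6 * K * e ∧
      ∀ a b, ‖S' (m a b) - S' a * S' b‖ ≤ 144 * K ^ 2 * e ^ 2 * (‖a‖ * ‖b‖) := by
  obtain ⟨T, hT⟩ := exists_equiv S hS
  have hS' : ‖S‖ ≤ 3 / 2 := by
    have h1 : S = (S - ContinuousLinearMap.id ℂ A) + ContinuousLinearMap.id ℂ A := by abel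
    rw [h1]
    refine (norm_add_le _ _).trans ((add_le_add hS ContinuousLinearMap.norm_id_le).trans ?_)
    norm_num
  have hSR : ∀ x, S ((T.symm : A →L[ℂ] A) x) = x := fun x => by
    rw [← hT]
    exact T.apply_symm_apply x
  have hRS : ∀ x, (T.symm : A →L[ℂ] A) (S x) = x := fun x => by
    rw [← hT]
    exact T.symm_apply_apply x
  have hR : ‖(T.symm : A →L[ℂ] A)‖ ≤ 2 := by
    refine ContinuousLinearMap.opNorm_le_bound _ (by norm_num) fun x => ?_
    set y := (T.symm : A →L[ℂ] A) x with hy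
    have h1 : ‖(S - ContinuousLinearMap.id ℂ A) y‖ ≤ 1 / 2 * ‖y‖ :=
      (S - ContinuousLinearMap.id ℂ A).le_of_opNorm_le hS y
    have h2 : y = x - (S - ContinuousLinearMap.id ℂ A) y := by
      have h3 : S y = x := hSR x
      change y = x - (S y - y)
      rw [h3]
      abel
    have h4 : ‖y‖ ≤ ‖x‖ + ‖(S - ContinuousLinearMap.id ℂ A) y‖ := by
      conv_lhs => rw [h2]
      exact norm_sub_le _ _
    linarith
  exact newton_step hK hst m hm S _ hSR hRS hS' hR e he hdef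

open Filter Topology in
/-- **Rigidity of the multiplication** of a Banach algebra with approximately vanishing
cohomology -/
theorem rigid [CompleteSpace A] {K : ℝ} (hK : 1 ≤ K) (hst : Stab A K)
    (m : A →L[ℂ] A →L[ℂ] A) (hm : ∀ a b c, m (m a b) c = m a (m b c)) (δ : ℝ) (hδ0 : 0 ≤ δ)
    (hδ : 288 * K ^ 2 * δ ≤ 1) (hdef : ∀ a b, ‖m a b - a * b‖ ≤ δ * (‖a‖ * ‖b‖)) :
    ∃ T : A ≃L[ℂ] A, (∀ a b, T (m a b) = T a * T b) ∧
      ‖(T : A →L[ℂ] A) - ContinuousLinearMap.id ℂ A‖ ≤ 12 * K * δ := by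
  have hKδ : 12 * K * δ ≤ 1 / 2 := by
    have h1 : K * δ ≤ K ^ 2 * δ := by nlinarith [mul_nonneg (by linarith : (0:ℝ) ≤ K) hδ0]
    nlinarith
  let P : ℕ → (A →L[ℂ] A) → Prop := fun n S =>
    ‖S - ContinuousLinearMap.id ℂ A‖ ≤ 12 * K * δ * (1 - 1 / 2 ^ n) ∧
      ∀ a b, ‖S (m a b) - S a * S b‖ ≤ δ / 2 ^ n * (‖a‖ * ‖b‖)
  have hP0 : P 0 (ContinuousLinearMap.id ℂ A) := by
    refine ⟨by simp, fun a b => ?_⟩
    rw [pow_zero, div_one]
    exact hdef a b
  have hstep : ∀ n S, P n S → ∃ S', P (n + 1) S' ∧ ‖S' - S‖ ≤ 6 * K * (δ / 2 ^ n) := by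
    intro n S hS
    have hp : (0 : ℝ) < 2 ^ n := by positivity
    have hp1 : (1 : ℝ) ≤ 2 ^ n := one_le_pow₀ (by norm_num)
    have hKn : 0 ≤ 12 * K * δ := by positivity
    have h1 : ‖S - ContinuousLinearMap.id ℂ A‖ ≤ 1 / 2 := by
      refine hS.1.trans (le_trans ?_ hKδ)
      refine mul_le_of_le_one_right hKn ?_
      have : 0 ≤ 1 / (2 : ℝ) ^ n := by positivity
      linarith
    obtain ⟨S', h2, h3⟩ := newton_step' hK hst m hm S h1 (δ / 2 ^ n) (by positivity) hS.2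
    refine ⟨S', ⟨?_, fun a b => (h3 a b).trans ?_⟩, h2⟩
    · have h4 : S' - ContinuousLinearMap.id ℂ A
          = (S' - S) + (S - ContinuousLinearMap.id ℂ A) := by abel
      rw [h4]
      refine (norm_add_le _ _).trans ((add_le_add h2 hS.1).trans (le_of_eq ?_))
      rw [pow_succ]
      field_simp
      ring
    · refine mul_le_mul_of_nonneg_right ?_ (by positivity)
      have h5 : 144 * K ^ 2 * (δ / 2 ^ n) ^ 2 = (288 * K ^ 2 * δ) * (δ / 2 ^ (n + 1)) / 2 ^ n := by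
        rw [pow_succ]
        field_simp
        ring
      rw [h5, div_le_iff₀ hp]
      have h6 : 0 ≤ δ / 2 ^ (n + 1) := by positivity
      nlinarith
  choose! F hF1 hF2 using hstep
  let u : ℕ → (A →L[ℂ] A) := fun n => Nat.rec (ContinuousLinearMap.id ℂ A) (fun n S => F n S) n
  have hu : ∀ n, P n (u n) := by
    intro n
    induction n with
    | zero => exact hP0
    | succ n ih => exact hF1 n (u n) ih
  have hd : ∀ n, dist (u n) (u (n + 1)) ≤ 12 * K * δ / 2 / 2 ^ n := by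
    intro n
    rw [dist_comm, dist_eq_norm]
    refine (hF2 n (u n) (hu n)).trans (le_of_eq ?_)
    field_simp
    ring
  obtain ⟨S, hS⟩ := cauchySeq_tendsto_of_complete (cauchySeq_of_le_geometric_two hd)
  have hS1 : ‖S - ContinuousLinearMap.id ℂ A‖ ≤ 12 * K * δ := by
    have h1 := dist_le_of_le_geometric_two_of_tendsto₀ hd hS
    rw [dist_comm, dist_eq_norm] at h1
    exact h1
  have hmul : ∀ a b, S (m a b) = S a * S b := by
    intro a b
    have hev : ∀ x, Tendsto (fun n => u n x) atTop (𝓝 (S x)) := fun x =>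
      ((ContinuousLinearMap.apply ℂ A x).continuous.tendsto S).comp hS
    have h1 : Tendsto (fun n => u n (m a b) - u n a * u n b) atTop
        (𝓝 (S (m a b) - S a * S b)) := (hev _).sub ((hev _).mul (hev _))
    have h2 : Tendsto (fun n => u n (m a b) - u n a * u n b) atTop (𝓝 0) := by
      refine squeeze_zero_norm (fun n => (hu n).2 a b) ?_
      have h3 : Tendsto (fun n : ℕ => δ * (‖a‖ * ‖b‖) * (1 / 2 : ℝ) ^ n) atTop (𝓝 0) := by
        have h4 := (tendsto_pow_atTop_nhds_zero_of_lt_one (by norm_num : (0 : ℝ) ≤ 1 / 2)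
          (by norm_num)).const_mul (δ * (‖a‖ * ‖b‖))
        rwa [mul_zero] at h4
      refine h3.congr fun n => ?_
      rw [one_div, inv_pow]
      field_simp
    exact sub_eq_zero.1 (tendsto_nhds_unique h1 h2)
  obtain ⟨T, hT⟩ := exists_equiv S (hS1.trans hKδ)
  refine ⟨T, fun a b => ?_, ?_⟩
  · rw [hT, hT, hT, hmul]
  · have h1 : (T : A →L[ℂ] A) = S := by
      ext x
      exact hT x
    rw [h1]
    exact hS1

end

end Vale.Agent.P082.H304
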