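import Vale.Agent.P082.H304.Sum
import Vale.Agent.P082.Bd8.B5

/-!
# Universal constants in the vanishing theorem
-/

namespace Vale.Agent.P082.H304

universe u

/-- a cocycle of norm at most one all of whose primitives are large -/
structure Bad (k : ℕ) (K : ℝ) : Type (u + 1) where
  H : Type u
  [i1 : NormedAddCommGroup H]
  [i2 : InnerProductSpace ℂ H]
  [i3 : CompleteSpace H]
  M : VonNeumannAlgebra H
  f : ContinuousMultilinearMap ℂ (fun _ : Fin (k + 1) => M.toStarSubalgebra) M.toStarSubalgebra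
  hf : ∀ a, hochschild (fun x => f x) a = 0
  nrm : ‖f‖ ≤ 1
  bad : ∀ g : ContinuousMultilinearMap ℂ (fun _ : Fin k => M.toStarSubalgebra) M.toStarSubalgebra,
    (∀ a, hochschild (fun x => g x) a = f a) → K < ‖g‖

attribute [instance] Bad.i1 Bad.i2 Bad.i3

/-- there are no bad cocycles for large constants -/
theorem exists_not_bad (k : ℕ) : ∃ K : ℕ, IsEmpty (Bad.{u} k K) := by
  by_contra hcon
  push Not at hcon
  have hcon' : ∀ K : ℕ, Nonempty (Bad.{u} k K) := fun K => by
    have := hcon K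
    simpa using this
  let B : ∀ K : ℕ, Bad.{u} k K := fun K => Classical.choice (hcon' K)
  obtain ⟨K, hK⟩ := (vglue (fun j => (B j).M)).bounded_primitives
    (VN.kadison_ringrose (vsum fun j => (B j).M) k) (fun j => (B j).f) 1 (fun j => (B j).nrm)
    (fun j => (B j).hf)
  obtain ⟨N, hN⟩ := exists_nat_ge K
  obtain ⟨g, hg, hgK⟩ := hK N
  exact absurd ((B N).bad g hg) (not_lt.2 (hgK.trans hN))

/-- **Universal constants**: bounded cocycles have primitives with a universal bound. -/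
theorem uniform (k : ℕ) : ∃ K : ℝ, 0 ≤ K ∧ ∀ (H : Type u) [NormedAddCommGroup H]
    [InnerProductSpace ℂ H] [CompleteSpace H] (M : VonNeumannAlgebra H)
    (f : ContinuousMultilinearMap ℂ (fun _ : Fin (k + 1) => M.toStarSubalgebra)
      M.toStarSubalgebra), (∀ a, hochschild (fun x => f x) a = 0) →
    ∃ g : ContinuousMultilinearMap ℂ (fun _ : Fin k => M.toStarSubalgebra) M.toStarSubalgebra,
      (∀ a, hochschild (fun x => g x) a = f a) ∧ ‖g‖ ≤ K * ‖f‖ := by
  obtain ⟨K, hK⟩ := exists_not_bad.{u} k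
  refine ⟨K, Nat.cast_nonneg K, fun H _ _ _ M f hf => ?_⟩
  rcases eq_or_ne f 0 with rfl | hf0
  · refine ⟨0, fun a => ?_, ?_⟩
    · exact hochschild_zero' a
    · rw [norm_zero, norm_zero, mul_zero]
  by_contra hcon
  push Not at hcon
  have hn : 0 < ‖f‖ := norm_pos_iff.2 hf0
  have hc : ((‖f‖ : ℂ)) ≠ 0 := by exact_mod_cast hn.ne'
  refine hK.false ⟨H, M, ((‖f‖ : ℂ)⁻¹) • f, fun a => ?_, ?_, fun g hg => ?_⟩
  · have h1 := hochschild_smul ((‖f‖ : ℂ)⁻¹) (fun x => f x) a
    rw [hf, smul_zero] at h1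
    exact h1
  · rw [norm_smul, norm_inv, Complex.norm_real, norm_norm, inv_mul_cancel₀ hn.ne']
  · have h2 := hcon ((‖f‖ : ℂ) • g) (fun a => by
      have h1 := hochschild_smul (‖f‖ : ℂ) (fun x => g x) a
      rw [hg] at h1
      refine h1.trans ?_
      change (‖f‖ : ℂ) • ((‖f‖ : ℂ)⁻¹ • f a) = f a
      rw [smul_inv_smul₀ hc])
    rw [norm_smul, Complex.norm_real, norm_norm, mul_comm] at h2
    exact lt_of_mul_lt_mul_left h2 hn.le

end Vale.Agent.P082.H304
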