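import Vale.Agent.P082.H304.Defs2
import Vale.Agent.P082.H304.Stab
import Vale.Agent.P082.H304.Uniform

/-!
# Approximate cocycles and rigidity of the multiplication, uniformly in the von Neumann algebra
-/

namespace Vale.Agent.P082.H304

universe u

lemma nearCoboundaries_of {A : Type*} [NormedRing A] [NormedAlgebra ℂ A] {k : ℕ} {K : ℝ}
    (hK : 0 ≤ K) (h1 : VanishesWithConstant A k K) (h2 : VanishesWithConstant A (k + 1) K) :
    NearCoboundaries A k (K * (1 + K * ((k : ℝ) + 3))) := by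
  intro f c hc0 hc
  obtain ⟨g, hg, hgf⟩ := approx_of_vanishing hK h1 h2 f c hc hc0
  refine ⟨g, hg, fun a => (hgf a).trans ?_⟩
  refine mul_le_mul_of_nonneg_right ?_ (Finset.prod_nonneg fun _ _ => norm_nonneg _)
  refine mul_le_mul_of_nonneg_right ?_ hc0
  have h3 : 0 ≤ K * (K * ((k : ℝ) + 3)) := by positivity
  linarith

lemma vanishes_mono {A : Type*} [NormedRing A] [NormedAlgebra ℂ A] {k : ℕ} {K K' : ℝ}
    (hK : K ≤ K') (h : VanishesWithConstant A k K) : VanishesWithConstant A k K' := by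
  intro f hf
  obtain ⟨g, hg, hn⟩ := h f hf
  exact ⟨g, hg, hn.trans (mul_le_mul_of_nonneg_right hK (norm_nonneg _))⟩

lemma rigid_of {A : Type*} [NormedRing A] [NormedAlgebra ℂ A] [CompleteSpace A] {K : ℝ}
    (hK : 1 ≤ K) (h1 : VanishesWithConstant A 1 K) (h2 : VanishesWithConstant A 2 K) :
    RigidMultiplication A (1 / (288 * (K * (1 + K * 4)) ^ 2)) (12 * (K * (1 + K * 4))) := by
  intro m hm δ hδ0 hδ hdef
  have hK' : 1 ≤ K * (1 + K * 4) := by nlinarith
  refine rigid hK' (stab_of_vanishing (by linarith) h1 h2) m hm δ hδ0 ?_ (fun a b => by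
    rw [← mul_assoc]
    exact hdef a b)
  have h3 : 0 < 288 * (K * (1 + K * 4)) ^ 2 := by positivity
  rw [le_div_iff₀ h3] at hδ
  linarith

/-- von Neumann algebras are complete -/
lemma complete {H : Type u} [NormedAddCommGroup H] [InnerProductSpace ℂ H] [CompleteSpace H]
    (M : VonNeumannAlgebra H) : CompleteSpace M.toStarSubalgebra := by
  have h : IsClosed (M.toStarSubalgebra : Set (H →L[ℂ] H)) := by
    have h1 := M.centralizer_centralizer'
    have h2 : (M.toStarSubalgebra : Set (H →L[ℂ] H)) = M.carrier := rfl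
    rw [h2, ← h1]
    exact Set.isClosed_centralizer _
  exact h.completeSpace_coe

/-- a common constant for the degrees `k + 1` and `k + 2` -/
lemma uniform₂ (k : ℕ) : ∃ K : ℝ, 1 ≤ K ∧ ∀ (H : Type u) [NormedAddCommGroup H]
    [InnerProductSpace ℂ H] [CompleteSpace H] (M : VonNeumannAlgebra H),
    VNVanishesWith M k K ∧ VNVanishesWith M (k + 1) K := by
  obtain ⟨K1, h1, hK1⟩ := uniform.{u} k
  obtain ⟨K2, h2, hK2⟩ := uniform.{u} (k + 1)
  refine ⟨1 + K1 + K2, by linarith, fun H _ _ _ M => ⟨?_, ?_⟩⟩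
  · exact vanishes_mono (K := K1) (by linarith) fun f hf => hK1 H M f hf
  · exact vanishes_mono (K := K2) (by linarith) fun f hf => hK2 H M f hf

theorem near (k : ℕ) : ∃ K : ℝ, 0 ≤ K ∧ ∀ (H : Type u) [NormedAddCommGroup H]
    [InnerProductSpace ℂ H] [CompleteSpace H] (M : VonNeumannAlgebra H),
    VNNearCoboundaries M k K := by
  obtain ⟨K, hK, h⟩ := uniform₂.{u} k
  exact ⟨K * (1 + K * ((k : ℝ) + 3)), by positivity, fun H _ _ _ M =>
    nearCoboundaries_of (by linarith) (h H M).1 (h H M).2⟩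

theorem rigidity : ∃ ε C : ℝ, 0 < ε ∧ ∀ (H : Type u) [NormedAddCommGroup H]
    [InnerProductSpace ℂ H] [CompleteSpace H] (M : VonNeumannAlgebra H),
    VNRigidMultiplication M ε C := by
  obtain ⟨K, hK, h⟩ := uniform₂.{u} 1
  refine ⟨1 / (288 * (K * (1 + K * 4)) ^ 2), 12 * (K * (1 + K * 4)), by positivity,
    fun H _ _ _ M => ?_⟩
  haveI := complete M
  exact rigid_of hK (h H M).1 (h H M).2

end Vale.Agent.P082.H304
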