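import Vale.Agent.P082.H304.Glue

/-!
# The Hochschild differential: `d² = 0`, multilinearity and norm bound
-/

namespace Vale.Agent.P082.H304

section algebra

variable {A : Type*} [Ring A]

/-- prepend a first variable -/
def pre {k : ℕ} (c : A) (x : Fin k → A) : Fin (k + 1) → A := Fin.cons (α := fun _ => A) c x

@[simp] lemma pre_zero {k : ℕ} (c : A) (x : Fin k → A) : pre c x 0 = c := rfl

@[simp] lemma pre_succ {k : ℕ} (c : A) (x : Fin k → A) (i : Fin k) : pre c x i.succ = x i := rfl

lemma pre_tail {k : ℕ} (a : Fin (k + 1) → A) : pre (a 0) (fun i => a i.succ) = a := by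
  funext i
  refine Fin.cases ?_ (fun i => ?_) i <;> simp

/-- the differential without its first term -/
def dpost {k : ℕ} (g : (Fin k → A) → A) (a : Fin (k + 1) → A) : A :=
  ∑ j : Fin k, (-1) ^ ((j : ℕ) + 1) * g (contract j a)
    + (-1) ^ (k + 1) * (g (fun i => a i.castSucc) * a (Fin.last k))

lemma hochschild_eq_dpost {k : ℕ} (g : (Fin k → A) → A) (a : Fin (k + 1) → A) :
    hochschild g a = a 0 * g (fun i => a i.succ) + dpost g a := by
  unfold hochschild dpost
  rw [add_assoc]

lemma contract_zero_pre {k : ℕ} (c : A) (a : Fin (k + 1) → A) :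
    contract (0 : Fin (k + 1)) (pre c a) = pre (c * a 0) (fun i => a i.succ) := by
  funext i
  refine Fin.cases ?_ (fun i => ?_) i
  · simp [contract, pre]
  · have h1 : ¬ (i.succ < (0 : Fin (k + 1))) := Fin.not_lt_zero _
    have h2 : ¬ (i.succ = (0 : Fin (k + 1))) := Fin.succ_ne_zero i
    simp only [contract, h1, h2, if_false, pre_succ]

lemma contract_succ_pre {k : ℕ} (j : Fin k) (c : A) (a : Fin (k + 1) → A) :
    contract j.succ (pre c a) = pre c (contract j a) := by
  funext i
  refine Fin.cases ?_ (fun i => ?_) i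
  · have h1 : (0 : Fin (k + 1)) < j.succ := Fin.succ_pos j
    simp only [contract, h1, if_true, pre_zero, Fin.castSucc_zero]
  · simp only [contract, pre_succ, Fin.succ_lt_succ_iff, Fin.succ_inj]
    split_ifs
    · rw [← Fin.succ_castSucc, pre_succ]
    · rw [← Fin.succ_castSucc, pre_succ]
    · rfl

lemma dpost_pre {k : ℕ} (g : (Fin (k + 1) → A) → A) (c : A) (a : Fin (k + 1) → A) :
    dpost g (pre c a) = - g (pre (c * a 0) (fun i => a i.succ))
      - dpost (fun z => g (pre c z)) a := by
  unfold dpost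
  rw [Fin.sum_univ_succ, contract_zero_pre]
  have h1 : (fun i : Fin (k + 1) => pre c a i.castSucc) = pre c (fun i => a i.castSucc) := by
    funext i
    refine Fin.cases ?_ (fun i => ?_) i
    · simp [pre]
    · rw [← Fin.succ_castSucc, pre_succ, pre_succ]
  have h2 : pre c a (Fin.last (k + 1)) = a (Fin.last k) := by
    rw [← Fin.succ_last, pre_succ]
  rw [h1, h2]
  simp only [contract_succ_pre, Fin.val_succ, Fin.val_zero, zero_add, pow_one, neg_mul, one_mul]
  have h3 : ∑ i : Fin k, (-1 : A) ^ ((i : ℕ) + 1 + 1) * g (pre c (contract i a))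
      = - ∑ i : Fin k, (-1 : A) ^ ((i : ℕ) + 1) * g (pre c (contract i a)) := by
    rw [← Finset.sum_neg_distrib]
    refine Finset.sum_congr rfl fun i _ => ?_
    rw [pow_succ]
    simp
  rw [h3, pow_succ (-1 : A) (k + 1)]
  simp only [mul_neg, mul_one, neg_mul]
  abel

lemma dpost_sub {k : ℕ} (g h : (Fin k → A) → A) (a : Fin (k + 1) → A) :
    dpost (fun z => g z - h z) a = dpost g a - dpost h a := by
  unfold dpost
  simp only [mul_sub, sub_mul, Finset.sum_sub_distrib]
  abel

lemma dpost_add {k : ℕ} (g h : (Fin k → A) → A) (a : Fin (k + 1) → A) :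
    dpost (fun z => g z + h z) a = dpost g a + dpost h a := by
  unfold dpost
  simp only [mul_add, add_mul, Finset.sum_add_distrib]
  abel

lemma dpost_neg {k : ℕ} (g : (Fin k → A) → A) (a : Fin (k + 1) → A) :
    dpost (fun z => - g z) a = - dpost g a := by
  unfold dpost
  simp only [mul_neg, neg_mul, Finset.sum_neg_distrib]
  abel

lemma dpost_mulL {k : ℕ} (T : A) (g : (Fin k → A) → A) (a : Fin (k + 1) → A) :
    dpost (fun z => T * g z) a = T * dpost g a := by
  unfold dpost
  have hc : ∀ (n : ℕ) (y : A), (-1 : A) ^ n * (T * y) = T * ((-1) ^ n * y) := by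
    intro n y
    rcases Nat.even_or_odd n with h | h <;> simp [h.neg_one_pow]
  simp only [hc, mul_add, Finset.mul_sum, mul_assoc]

lemma dpost_zero_var (g : (Fin 0 → A) → A) (a : Fin 1 → A) :
    dpost g a = - (g Fin.elim0 * a 0) := by
  have h : (fun i : Fin 0 => a i.castSucc) = Fin.elim0 := by
    funext i; exact i.elim0
  unfold dpost
  rw [h]
  simp

lemma dpost_dpost_step {k : ℕ} (g : (Fin (k + 1) → A) → A)
    (ih : ∀ (g : (Fin k → A) → A) (x : Fin (k + 2) → A), dpost (fun z => dpost g z) x = 0)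
    (c b : A) (a : Fin (k + 1) → A) : dpost (fun z => dpost g z) (pre c (pre b a)) = 0 := by
  rw [dpost_pre]
  simp only [pre_zero, pre_succ]
  have h1 : (fun z : Fin (k + 1) → A => dpost g (pre c z))
      = fun z => (fun y => - g (pre (c * y 0) (fun i => y i.succ))) z
        - (fun y => dpost (fun w => g (pre c w)) y) z := by
    funext z
    exact dpost_pre g c z
  rw [h1, dpost_sub, ih (fun w => g (pre c w)), dpost_neg]
  have h2 : dpost (fun y : Fin (k + 1) → A => g (pre (c * y 0) (fun i => y i.succ))) (pre b a)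
      = - g (pre (c * (b * a 0)) (fun i => a i.succ))
        - dpost (fun z => g (pre (c * b) z)) a := by
    rw [dpost_pre]
    simp only [pre_zero, pre_succ]
  rw [h2]
  have h3 : dpost g (pre (c * b) a) = - g (pre (c * b * a 0) (fun i => a i.succ))
      - dpost (fun z => g (pre (c * b) z)) a := dpost_pre g _ _
  have h4 : (fun i : Fin (k + 1) => a i) = a := rfl
  rw [h4, h3, mul_assoc]
  abel

lemma dpost_dpost : ∀ {k : ℕ} (g : (Fin k → A) → A) (x : Fin (k + 2) → A),
    dpost (fun z => dpost g z) x = 0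
  | 0, g, x => by
      rw [← pre_tail x, dpost_pre, dpost_zero_var]
      simp only [dpost_zero_var, pre_zero]
      noncomm_ring
  | k + 1, g, x => by
      rw [← pre_tail x, ← pre_tail (fun i => x i.succ)]
      exact dpost_dpost_step g dpost_dpost _ _ _

lemma hochschild_hochschild_pre {k : ℕ} (g : (Fin k → A) → A) (c : A) (x : Fin (k + 1) → A) :
    hochschild (fun z => hochschild g z) (pre c x) = 0 := by
  rw [hochschild_eq_dpost]
  have h1 : (fun z : Fin (k + 1) → A => hochschild g z)
      = fun z => (fun y : Fin (k + 1) → A => y 0 * g (fun i => y i.succ)) z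
        + (fun y => dpost g y) z := by
    funext z
    exact hochschild_eq_dpost g z
  rw [h1, dpost_add, dpost_dpost, dpost_pre]
  simp only [pre_zero, pre_succ]
  rw [dpost_mulL]
  have h5 : dpost (fun z => g fun i => z i) x = dpost g x := rfl
  have h6 : hochschild g (fun i => x i) = x 0 * g (fun i => x i.succ) + dpost g x :=
    hochschild_eq_dpost g x
  rw [h5, h6]
  noncomm_ring

/-- `d² = 0` -/
lemma hochschild_hochschild {k : ℕ} (g : (Fin k → A) → A) (x : Fin (k + 2) → A) :
    hochschild (fun z => hochschild g z) x = 0 := by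
  rw [← pre_tail x]
  exact hochschild_hochschild_pre g _ _

end algebra

section normed

variable {A : Type*} [NormedRing A] [NormedAlgebra ℂ A]

lemma contract_update {k : ℕ} (j : Fin k) (i : Fin (k + 1)) (x : Fin (k + 1) → A) :
    ∃ (i' : Fin k) (φ : A →ₗ[ℂ] A), ∀ y, contract j (Function.update x i y)
      = Function.update (contract j x) i' (φ y) := by
  rcases eq_or_ne i j.castSucc with rfl | h1
  · refine ⟨j, LinearMap.mulRight ℂ (x j.succ), fun y => ?_⟩
    funext l
    rcases lt_trichotomy l j with hl | rfl | hl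
    · have h3 : l.castSucc ≠ j.castSucc := fun h => hl.ne (Fin.castSucc_injective _ h)
      rw [Function.update_of_ne hl.ne]
      simp [contract, hl, Function.update_of_ne h3]
    · have h3 : l.succ ≠ l.castSucc := by simp [Fin.ext_iff]
      rw [Function.update_self]
      simp [contract, Function.update_of_ne h3]
    · have h3 : l.succ ≠ j.castSucc := by
        intro h
        have := congrArg Fin.val h
        simp only [Fin.val_succ, Fin.val_castSucc] at this
        have := Fin.lt_def.1 hl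
        omega
      rw [Function.update_of_ne hl.ne']
      simp [contract, hl.not_gt, hl.ne', Function.update_of_ne h3]
  rcases eq_or_ne i j.succ with rfl | h2
  · refine ⟨j, LinearMap.mulLeft ℂ (x j.castSucc), fun y => ?_⟩
    funext l
    rcases lt_trichotomy l j with hl | rfl | hl
    · have h3 : l.castSucc ≠ j.succ := by
        intro h
        have := congrArg Fin.val h
        simp only [Fin.val_succ, Fin.val_castSucc] at this
        have := Fin.lt_def.1 hl
        omega
      rw [Function.update_of_ne hl.ne]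
      simp [contract, hl, Function.update_of_ne h3]
    · have h3 : l.castSucc ≠ l.succ := by simp [Fin.ext_iff]
      rw [Function.update_self]
      simp [contract, Function.update_of_ne h3]
    · have h3 : l.succ ≠ j.succ := fun h => hl.ne' (Fin.succ_injective _ h)
      rw [Function.update_of_ne hl.ne']
      simp [contract, hl.not_gt, hl.ne', Function.update_of_ne h3]
  rcases lt_or_gt_of_ne h1 with h | h
  · have hlt : (i : ℕ) < j := by simpa [Fin.lt_def] using h
    refine ⟨⟨i, hlt.trans j.2⟩, LinearMap.id, fun y => ?_⟩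
    have hi : i = (⟨i, hlt.trans j.2⟩ : Fin k).castSucc := by simp [Fin.ext_iff]
    funext l
    rcases eq_or_ne l ⟨i, hlt.trans j.2⟩ with rfl | hne
    · rw [Function.update_self]
      have h4 : (⟨i, hlt.trans j.2⟩ : Fin k) < j := hlt
      simp [contract, h4]
    · rw [Function.update_of_ne hne]
      have h5 : l.castSucc ≠ i := fun h' => hne (Fin.castSucc_injective _ (h'.trans hi))
      have h6 : l = j → l.succ ≠ i := fun h' h'' => h2 (by rw [← h'', h'])
      have h7 : ¬ l < j → l.succ ≠ i := by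
        intro h' h''
        have := congrArg Fin.val h''
        simp only [Fin.val_succ] at this
        have : (j : ℕ) ≤ l := not_lt.1 h'
        omega
      unfold contract
      split_ifs with ha hb
      · rw [Function.update_of_ne h5]
      · subst hb
        rw [Function.update_of_ne h5, Function.update_of_ne (h6 rfl)]
      · rw [Function.update_of_ne (h7 ha)]
  · have hgt : (j : ℕ) + 1 < i := by
      have h3 : (j : ℕ) < i := by simpa [Fin.lt_def] using h
      have h4 : (i : ℕ) ≠ j + 1 := fun h' => h2 (Fin.ext (by simpa using h'))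
      omega
    have hi2 := i.2
    have hk : (i : ℕ) - 1 < k := by omega
    refine ⟨⟨i - 1, hk⟩, LinearMap.id, fun y => ?_⟩
    have hi : i = (⟨i - 1, hk⟩ : Fin k).succ := by
      rw [Fin.ext_iff]
      simp only [Fin.val_succ]
      omega
    funext l
    rcases eq_or_ne l ⟨i - 1, hk⟩ with rfl | hne
    · rw [Function.update_self]
      have h4 : ¬ (⟨i - 1, hk⟩ : Fin k) < j := by
        rw [Fin.lt_def]
        simp only
        omega
      have h5 : ¬ (⟨i - 1, hk⟩ : Fin k) = j := by
        rw [Fin.ext_iff]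
        simp only
        omega
      unfold contract
      rw [if_neg h4, if_neg h5, ← hi, Function.update_self]
      rfl
    · rw [Function.update_of_ne hne]
      have h5 : l.succ ≠ i := fun h' => hne (Fin.succ_injective _ (h'.trans hi))
      have h6 : l ≤ j → l.castSucc ≠ i := by
        intro h' h''
        have := congrArg Fin.val h''
        simp only [Fin.val_castSucc] at this
        have : (l : ℕ) ≤ j := h'
        omega
      unfold contract
      split_ifs with ha hb
      · rw [Function.update_of_ne (h6 ha.le)]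
      · subst hb
        rw [Function.update_of_ne h5, Function.update_of_ne (h6 le_rfl)]
      · rw [Function.update_of_ne h5]

lemma prod_norm_contract_le : ∀ {k : ℕ} (j : Fin k) (a : Fin (k + 1) → A),
    ∏ i, ‖contract j a i‖ ≤ ∏ i, ‖a i‖
  | k + 1, j, a => by
      rw [← pre_tail a]
      refine Fin.cases ?_ (fun j => ?_) j
      · rw [contract_zero_pre, Fin.prod_univ_succ, Fin.prod_univ_succ]
        simp only [pre_zero, pre_succ]
        rw [Fin.prod_univ_succ (fun i : Fin (k + 1) => ‖a i.succ‖), ← mul_assoc]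
        exact mul_le_mul_of_nonneg_right (norm_mul_le _ _)
          (Finset.prod_nonneg fun _ _ => norm_nonneg _)
      · rw [contract_succ_pre, Fin.prod_univ_succ, Fin.prod_univ_succ]
        simp only [pre_zero, pre_succ]
        exact mul_le_mul_of_nonneg_left (prod_norm_contract_le j _) (norm_nonneg _)

/-- `‖df‖ ≤ (k + 2) ‖f‖` -/
lemma norm_hochschild_le {k : ℕ} (f : ContinuousMultilinearMap ℂ (fun _ : Fin k => A) A)
    (a : Fin (k + 1) → A) :
    ‖hochschild (fun x => f x) a‖ ≤ ((k : ℝ) + 2) * ‖f‖ * ∏ i, ‖a i‖ := by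
  have h1 : ‖a 0 * f (fun i => a i.succ)‖ ≤ ‖f‖ * ∏ i, ‖a i‖ := by
    rw [Fin.prod_univ_succ]
    calc ‖a 0 * f (fun i => a i.succ)‖ ≤ ‖a 0‖ * ‖f (fun i => a i.succ)‖ := norm_mul_le _ _
      _ ≤ ‖a 0‖ * (‖f‖ * ∏ i : Fin k, ‖a i.succ‖) :=
        mul_le_mul_of_nonneg_left (f.le_opNorm _) (norm_nonneg _)
      _ = ‖f‖ * (‖a 0‖ * ∏ i : Fin k, ‖a i.succ‖) := by ring
  have h2 : ∀ j : Fin k, ‖(-1) ^ ((j : ℕ) + 1) * f (contract j a)‖ ≤ ‖f‖ * ∏ i, ‖a i‖ := by
    intro j
    rw [neg_one_pow_mul', norm_smul, norm_pow, norm_neg, norm_one, one_pow, one_mul]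
    exact (f.le_opNorm _).trans (mul_le_mul_of_nonneg_left (prod_norm_contract_le j a)
      (norm_nonneg _))
  have h3 : ‖(-1) ^ (k + 1) * (f (fun i => a i.castSucc) * a (Fin.last k))‖
      ≤ ‖f‖ * ∏ i, ‖a i‖ := by
    rw [neg_one_pow_mul', norm_smul, norm_pow, norm_neg, norm_one, one_pow, one_mul,
      Fin.prod_univ_castSucc]
    calc ‖f (fun i => a i.castSucc) * a (Fin.last k)‖
        ≤ ‖f (fun i => a i.castSucc)‖ * ‖a (Fin.last k)‖ := norm_mul_le _ _
      _ ≤ (‖f‖ * ∏ i : Fin k, ‖a i.castSucc‖) * ‖a (Fin.last k)‖ :=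
        mul_le_mul_of_nonneg_right (f.le_opNorm _) (norm_nonneg _)
      _ = ‖f‖ * ((∏ i : Fin k, ‖a i.castSucc‖) * ‖a (Fin.last k)‖) := by ring
  have h4 : ‖∑ j : Fin k, (-1) ^ ((j : ℕ) + 1) * f (contract j a)‖
      ≤ (k : ℝ) * (‖f‖ * ∏ i, ‖a i‖) := by
    refine (norm_sum_le _ _).trans ((Finset.sum_le_sum fun j _ => h2 j).trans ?_)
    rw [Finset.sum_const, Finset.card_univ, Fintype.card_fin, nsmul_eq_mul]
  unfold hochschild
  calc _ ≤ ‖a 0 * f (fun i => a i.succ)‖
        + ‖∑ j : Fin k, (-1) ^ ((j : ℕ) + 1) * f (contract j a)‖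
        + ‖(-1) ^ (k + 1) * (f (fun i => a i.castSucc) * a (Fin.last k))‖ := norm_add₃_le
    _ ≤ ‖f‖ * ∏ i, ‖a i‖ + (k : ℝ) * (‖f‖ * ∏ i, ‖a i‖) + ‖f‖ * ∏ i, ‖a i‖ := by
        gcongr
    _ = ((k : ℝ) + 2) * ‖f‖ * ∏ i, ‖a i‖ := by ring

lemma update_comp_inj {B : Type*} {n m : ℕ} (e : Fin m → Fin n) (he : Function.Injective e)
    (x : Fin n → B) (i : Fin m) (y : B) :
    (fun l => Function.update x (e i) y (e l)) = Function.update (fun l => x (e l)) i y := by
  funext l
  rcases eq_or_ne l i with rfl | hl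
  · simp
  · rw [Function.update_of_ne hl, Function.update_of_ne (fun h => hl (he h))]

lemma update_comp_ne {B : Type*} {n m : ℕ} (e : Fin m → Fin n) (x : Fin n → B) (i : Fin n)
    (hi : ∀ l, e l ≠ i) (y : B) :
    (fun l => Function.update x i y (e l)) = fun l => x (e l) := by
  funext l
  rw [Function.update_of_ne (hi l)]

/-- linearity of the differential in each variable -/
lemma hochschild_update {k : ℕ} (f : ContinuousMultilinearMap ℂ (fun _ : Fin k => A) A)
    (x : Fin (k + 1) → A) (i : Fin (k + 1)) :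
    ∃ Φ : A →ₗ[ℂ] A, ∀ y, hochschild (fun x => f x) (Function.update x i y) = Φ y := by
  -- first term
  have h1 : ∃ Φ : A →ₗ[ℂ] A, ∀ y, Function.update x i y 0
      * f (fun l : Fin k => Function.update x i y l.succ) = Φ y := by
    refine Fin.cases ?_ (fun i => ?_) i
    · refine ⟨LinearMap.mulRight ℂ (f (fun l => x l.succ)), fun y => ?_⟩
      rw [update_comp_ne Fin.succ x 0 (fun l => Fin.succ_ne_zero l), Function.update_self]
      rfl
    · refine ⟨(LinearMap.mulLeft ℂ (x 0)).comp (f.toMultilinearMap.toLinearMap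
        (fun l => x l.succ) i), fun y => ?_⟩
      rw [update_comp_inj Fin.succ (Fin.succ_injective _),
        Function.update_of_ne (Fin.succ_ne_zero i).symm]
      rfl
  have h2 : ∀ j : Fin k, ∃ Φ : A →ₗ[ℂ] A, ∀ y,
      (-1) ^ ((j : ℕ) + 1) * f (contract j (Function.update x i y)) = Φ y := by
    intro j
    obtain ⟨i', φ, h⟩ := contract_update j i x
    refine ⟨((-1 : ℂ) ^ ((j : ℕ) + 1)) • ((f.toMultilinearMap.toLinearMap
      (contract j x) i').comp φ), fun y => ?_⟩
    rw [h, neg_one_pow_mul']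
    rfl
  have h3 : ∃ Φ : A →ₗ[ℂ] A, ∀ y, (-1) ^ (k + 1)
      * (f (fun l : Fin k => Function.update x i y l.castSucc)
        * Function.update x i y (Fin.last k)) = Φ y := by
    refine Fin.lastCases ?_ (fun i => ?_) i
    · refine ⟨((-1 : ℂ) ^ (k + 1)) • LinearMap.mulLeft ℂ (f (fun l => x l.castSucc)),
        fun y => ?_⟩
      rw [update_comp_ne Fin.castSucc x (Fin.last k) (fun l => (Fin.castSucc_lt_last l).ne),
        Function.update_self, neg_one_pow_mul']
      rfl
    · refine ⟨((-1 : ℂ) ^ (k + 1)) • (LinearMap.mulRight ℂ (x (Fin.last k))).comp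
        (f.toMultilinearMap.toLinearMap (fun l => x l.castSucc) i), fun y => ?_⟩
      rw [update_comp_inj Fin.castSucc (Fin.castSucc_injective _),
        Function.update_of_ne (Fin.castSucc_lt_last i).ne', neg_one_pow_mul']
      rfl
  obtain ⟨Φ1, h1⟩ := h1
  choose Φ2 h2 using h2
  obtain ⟨Φ3, h3⟩ := h3
  refine ⟨Φ1 + ∑ j, Φ2 j + Φ3, fun y => ?_⟩
  unfold hochschild
  rw [h1, h3, Finset.sum_congr rfl fun j _ => h2 j y]
  simp

/-- the differential of a bounded cochain, as a bounded cochain -/
noncomputable def dmap {k : ℕ} (f : ContinuousMultilinearMap ℂ (fun _ : Fin k => A) A) (c : ℝ)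
    (hc : ∀ a, ‖hochschild (fun x => f x) a‖ ≤ c * ∏ i, ‖a i‖) :
    ContinuousMultilinearMap ℂ (fun _ : Fin (k + 1) => A) A :=
  MultilinearMap.mkContinuous
    { toFun := hochschild (fun x => f x)
      map_update_add' := fun {inst} x i a b => by
        obtain rfl : inst = instDecidableEqFin (k + 1) := Subsingleton.elim _ _
        obtain ⟨Φ, h⟩ := hochschild_update f x i
        rw [h, h, h, map_add]
      map_update_smul' := fun {inst} x i c a => by
        obtain rfl : inst = instDecidableEqFin (k + 1) := Subsingleton.elim _ _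
        obtain ⟨Φ, h⟩ := hochschild_update f x i
        rw [h, h, map_smul] } c hc

lemma dmap_apply {k : ℕ} (f : ContinuousMultilinearMap ℂ (fun _ : Fin k => A) A) (c : ℝ)
    (hc : ∀ a, ‖hochschild (fun x => f x) a‖ ≤ c * ∏ i, ‖a i‖) (a : Fin (k + 1) → A) :
    dmap f c hc a = hochschild (fun x => f x) a := rfl

lemma dmap_cocycle {k : ℕ} (f : ContinuousMultilinearMap ℂ (fun _ : Fin k => A) A) (c : ℝ)
    (hc : ∀ a, ‖hochschild (fun x => f x) a‖ ≤ c * ∏ i, ‖a i‖) (a : Fin (k + 2) → A) :
    hochschild (fun x => dmap f c hc x) a = 0 :=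
  hochschild_hochschild (fun x => f x) a

lemma norm_dmap_le {k : ℕ} (f : ContinuousMultilinearMap ℂ (fun _ : Fin k => A) A) (c : ℝ)
    (hc : ∀ a, ‖hochschild (fun x => f x) a‖ ≤ c * ∏ i, ‖a i‖) (hc0 : 0 ≤ c) :
    ‖dmap f c hc‖ ≤ c := MultilinearMap.mkContinuous_norm_le _ hc0 _

/-- approximate cocycles are near coboundaries -/
theorem approx_of_vanishing {k : ℕ} {K : ℝ} (hK : 0 ≤ K)
    (h1 : ∀ f : ContinuousMultilinearMap ℂ (fun _ : Fin (k + 1) => A) A,
      (∀ a, hochschild (fun x => f x) a = 0) →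
      ∃ g : ContinuousMultilinearMap ℂ (fun _ : Fin k => A) A,
        (∀ a, hochschild (fun x => g x) a = f a) ∧ ‖g‖ ≤ K * ‖f‖)
    (h2 : ∀ f : ContinuousMultilinearMap ℂ (fun _ : Fin (k + 2) => A) A,
      (∀ a, hochschild (fun x => f x) a = 0) →
      ∃ g : ContinuousMultilinearMap ℂ (fun _ : Fin (k + 1) => A) A,
        (∀ a, hochschild (fun x => g x) a = f a) ∧ ‖g‖ ≤ K * ‖f‖)
    (f : ContinuousMultilinearMap ℂ (fun _ : Fin (k + 1) => A) A) (c : ℝ)
    (hc : ∀ a, ‖hochschild (fun x => f x) a‖ ≤ c * ∏ i, ‖a i‖) (hc0 : 0 ≤ c) :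
    ∃ g : ContinuousMultilinearMap ℂ (fun _ : Fin k => A) A,
      ‖g‖ ≤ (K * (1 + K * ((k : ℝ) + 3))) * ‖f‖ ∧
      ∀ a, ‖f a - hochschild (fun x => g x) a‖ ≤ (K * c) * ∏ i, ‖a i‖ := by
  set c' : ℝ := min c (((k : ℝ) + 3) * ‖f‖) with hc'
  have hc'0 : 0 ≤ c' := le_min hc0 (by positivity)
  have hb : ∀ a, ‖hochschild (fun x => f x) a‖ ≤ c' * ∏ i, ‖a i‖ := by
    intro a
    have hp : 0 ≤ ∏ i, ‖a i‖ := Finset.prod_nonneg fun _ _ => norm_nonneg _
    rw [hc', min_mul_of_nonneg _ _ hp]
    refine le_min (hc a) ((norm_hochschild_le f a).trans (le_of_eq ?_))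
    push_cast
    ring
  obtain ⟨u, hu, hun⟩ := h2 (dmap f c' hb) (dmap_cocycle f c' hb)
  have hu' : ‖u‖ ≤ K * c' := hun.trans (mul_le_mul_of_nonneg_left (norm_dmap_le f c' hb hc'0) hK)
  obtain ⟨g, hg, hgn⟩ := h1 (f - u) (fun a => by
    have h3 := hochschild_sub (fun x => f x) (fun x => u x) a
    rw [hu, dmap_apply, sub_self] at h3
    exact h3)
  refine ⟨g, ?_, fun a => ?_⟩
  · have h4 : ‖f - u‖ ≤ ‖f‖ + K * (((k : ℝ) + 3) * ‖f‖) :=
      (norm_sub_le _ _).trans (add_le_add_right (hu'.trans
        (mul_le_mul_of_nonneg_left (min_le_right _ _) hK)) _)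
    calc ‖g‖ ≤ K * ‖f - u‖ := hgn
      _ ≤ K * (‖f‖ + K * (((k : ℝ) + 3) * ‖f‖)) := mul_le_mul_of_nonneg_left h4 hK
      _ = (K * (1 + K * ((k : ℝ) + 3))) * ‖f‖ := by ring
  · have h5 : f a - hochschild (fun x => g x) a = u a := by
      rw [hg]
      change f a - (f a - u a) = u a
      abel
    rw [h5]
    refine (u.le_opNorm a).trans (mul_le_mul_of_nonneg_right
      (hu'.trans (mul_le_mul_of_nonneg_left (min_le_left _ _) hK))
      (Finset.prod_nonneg fun _ _ => norm_nonneg _))

end normed

end Vale.Agent.P082.H304
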