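import Vale.Agent.P082.H304.Ops
import Vale.Agent.P082.H304.Glue

/-!
# Countable direct sums of von Neumann algebras
-/

open scoped InnerProductSpace ENNReal

namespace Vale.Agent.P082.H304

universe u

variable {G : ℕ → Type u} [∀ j, NormedAddCommGroup (G j)] [∀ j, InnerProductSpace ℂ (G j)]
  [∀ j, CompleteSpace (G j)] (M : ∀ j, VonNeumannAlgebra (G j))

omit [∀ j, CompleteSpace (G j)] in
lemma norm_val {B : Type*} [NormedRing B] [StarRing B] [NormedAlgebra ℂ B] [StarModule ℂ B]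
    {S : StarSubalgebra ℂ B} (a : S) : ‖a‖ = ‖(a : B)‖ := rfl

/-- restriction of a contractive linear map to star subalgebras -/
noncomputable def restr {B B' : Type*} [NormedRing B] [StarRing B] [NormedAlgebra ℂ B]
    [StarModule ℂ B] [NormedRing B'] [StarRing B'] [NormedAlgebra ℂ B'] [StarModule ℂ B']
    (S : StarSubalgebra ℂ B) (S' : StarSubalgebra ℂ B') (φ : B →ₗ[ℂ] B')
    (h : ∀ b ∈ S, φ b ∈ S') (hn : ∀ b, ‖φ b‖ ≤ ‖b‖) : S →L[ℂ] S' :=
  LinearMap.mkContinuous
    { toFun := fun a => ⟨φ a, h a a.2⟩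
      map_add' := fun a b => Subtype.ext (map_add φ a.1 b.1)
      map_smul' := fun c a => Subtype.ext (map_smul φ c a.1) } 1
    (fun a => by rw [one_mul]; exact hn a.1)

lemma norm_restr_le {B B' : Type*} [NormedRing B] [StarRing B] [NormedAlgebra ℂ B]
    [StarModule ℂ B] [NormedRing B'] [StarRing B'] [NormedAlgebra ℂ B'] [StarModule ℂ B']
    (S : StarSubalgebra ℂ B) (S' : StarSubalgebra ℂ B') (φ : B →ₗ[ℂ] B')
    (h : ∀ b ∈ S, φ b ∈ S') (hn : ∀ b, ‖φ b‖ ≤ ‖b‖) (a : S) : ‖restr S S' φ h hn a‖ ≤ ‖a‖ :=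
  hn a.1

/-- block operators with blocks in the commutants -/
def gen : Set (lp G 2 →L[ℂ] lp G 2) := {x | ∃ j, ∃ T ∈ (M j).commutant, x = blk j T}

/-- the direct sum -/
noncomputable def vsum : VonNeumannAlgebra (lp G 2) where
  toStarSubalgebra := StarSubalgebra.centralizer ℂ (gen M)
  centralizer_centralizer' := by
    have h : (StarSubalgebra.centralizer ℂ (gen M)).carrier
        = Set.centralizer (gen M ∪ star (gen M)) := StarSubalgebra.coe_centralizer ℂ (gen M)
    rw [h, Set.centralizer_centralizer_centralizer]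

lemma mem_vsum {x : lp G 2 →L[ℂ] lp G 2} :
    x ∈ (vsum M).toStarSubalgebra ↔ ∀ j, ∀ T ∈ (M j).commutant, blk j T * x = x * blk j T := by
  constructor
  · intro h j T hT
    exact ((StarSubalgebra.mem_centralizer_iff ℂ).1 h _ ⟨j, T, hT, rfl⟩).1
  · intro h
    refine (StarSubalgebra.mem_centralizer_iff ℂ).2 ?_
    rintro _ ⟨j, T, hT, rfl⟩
    refine ⟨h j T hT, ?_⟩
    rw [star_blk]
    exact h j _ (star_mem hT)

variable {M}

lemma mem_of_comm {j : ℕ} {y : G j →L[ℂ] G j} (h : ∀ T ∈ (M j).commutant, T * y = y * T) :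
    y ∈ (M j).toStarSubalgebra := by
  have h1 : y ∈ (M j).commutant.commutant := VonNeumannAlgebra.mem_commutant_iff.2 h
  rw [VonNeumannAlgebra.commutant_commutant] at h1
  exact h1

lemma comm_of_mem {j : ℕ} {y T : G j →L[ℂ] G j} (hy : y ∈ (M j).toStarSubalgebra)
    (hT : T ∈ (M j).commutant) : T * y = y * T :=
  (VonNeumannAlgebra.mem_commutant_iff.1 hT y hy).symm

lemma cmp_mem {x : lp G 2 →L[ℂ] lp G 2} (h : x ∈ (vsum M).toStarSubalgebra) (j : ℕ) :
    cmp j x ∈ (M j).toStarSubalgebra := by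
  refine mem_of_comm fun T hT => ?_
  have h1 := (mem_vsum M).1 h j T hT
  ext1 v
  have h2 := congrArg (fun z : lp G 2 →L[ℂ] lp G 2 => ev G j (z (emb G j v))) h1
  simp only [mul_apply_eq_comp, blk_apply, ev_emb] at h2
  exact h2

lemma comm_proj {x : lp G 2 →L[ℂ] lp G 2} (h : x ∈ (vsum M).toStarSubalgebra) (j : ℕ)
    (v : lp G 2) : x (emb G j (ev G j v)) = emb G j (ev G j (x v)) := by
  have h1 := (mem_vsum M).1 h j 1 (one_mem _)
  have h2 := congrArg (fun z : lp G 2 →L[ℂ] lp G 2 => z v) h1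
  simp only [mul_apply_eq_comp, blk_apply, one_apply_eq_self] at h2
  exact h2.symm

lemma blk_mem (j : ℕ) {a : G j →L[ℂ] G j} (ha : a ∈ (M j).toStarSubalgebra) :
    blk j a ∈ (vsum M).toStarSubalgebra := by
  refine (mem_vsum M).2 fun k T hT => ?_
  rcases eq_or_ne k j with rfl | hk
  · rw [← blk_mul, ← blk_mul, comm_of_mem ha hT]
  · rw [blk_mul_ne hk.symm, blk_mul_ne hk]

lemma diag_mem {a : ∀ j, G j →L[ℂ] G j} (ha : ∀ j, a j ∈ (M j).toStarSubalgebra) (C : ℝ)
    (h : ∀ j, ‖a j‖ ≤ C) : diag a C h ∈ (vsum M).toStarSubalgebra := by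
  refine (mem_vsum M).2 fun k T hT => ?_
  ext1 v
  apply ext_ev
  intro j
  rw [mul_apply_eq_comp, mul_apply_eq_comp, blk_apply, blk_apply, ev_diag]
  rcases eq_or_ne j k with rfl | hj
  · rw [ev_emb, ev_diag, ev_emb]
    exact congrArg (fun z : G j →L[ℂ] G j => z (ev G j v)) (comm_of_mem (ha j) hT)
  · rw [ev_emb_ne hj, ev_diag, ev_emb_ne hj, map_zero]

variable (M)

/-- the inclusion of a summand, as a map of algebras -/
noncomputable def up (j : ℕ) : (M j).toStarSubalgebra →L[ℂ] (vsum M).toStarSubalgebra :=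
  restr (M j).toStarSubalgebra (vsum M).toStarSubalgebra (blkL j) (fun _ h => blk_mem j h)
    (norm_blk_le j)

/-- the projection to a summand, as a map of algebras -/
noncomputable def down (j : ℕ) : (vsum M).toStarSubalgebra →L[ℂ] (M j).toStarSubalgebra :=
  restr (vsum M).toStarSubalgebra (M j).toStarSubalgebra (cmpL j) (fun _ h => cmp_mem h j)
    (norm_cmp_le j)

lemma coe_up (j : ℕ) (a : (M j).toStarSubalgebra) :
    ((up M j a : (vsum M).toStarSubalgebra) : lp G 2 →L[ℂ] lp G 2) = blk j a.1 := rfl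

lemma coe_down (j : ℕ) (a : (vsum M).toStarSubalgebra) :
    ((down M j a : (M j).toStarSubalgebra) : G j →L[ℂ] G j) = cmp j a.1 := rfl

lemma norm_up_le (j : ℕ) (a : (M j).toStarSubalgebra) : ‖up M j a‖ ≤ ‖a‖ :=
  norm_restr_le _ _ _ _ _ a

lemma norm_down_le (j : ℕ) (a : (vsum M).toStarSubalgebra) : ‖down M j a‖ ≤ ‖a‖ :=
  norm_restr_le _ _ _ _ _ a

lemma down_up (j : ℕ) (a : (M j).toStarSubalgebra) : down M j (up M j a) = a :=
  Subtype.ext (cmp_blk j a.1)

lemma up_mul (j : ℕ) (a b : (M j).toStarSubalgebra) :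
    up M j (a * b) = up M j a * up M j b :=
  Subtype.ext (blk_mul j a.1 b.1)

lemma down_mul (j : ℕ) (a b : (vsum M).toStarSubalgebra) :
    down M j (a * b) = down M j a * down M j b := by
  apply Subtype.ext
  ext1 v
  change ev G j (a.1 (b.1 (emb G j v))) = ev G j (a.1 (emb G j (ev G j (b.1 (emb G j v)))))
  rw [comm_proj a.2 j, ev_emb]

lemma down_ext {a b : (vsum M).toStarSubalgebra} (h : ∀ j, down M j a = down M j b) : a = b := by
  apply Subtype.ext
  apply ext_emb
  intro j v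
  have h1 : ∀ c : (vsum M).toStarSubalgebra, c.1 (emb G j v) = emb G j (cmp j c.1 v) := by
    intro c
    have h2 := comm_proj c.2 j (emb G j v)
    rw [ev_emb] at h2
    rw [h2]
    rfl
  rw [h1 a, h1 b]
  have h3 := congrArg (fun z : (M j).toStarSubalgebra => z.1) (h j)
  rw [coe_down, coe_down] at h3
  rw [h3]

/-- the element with given bounded components -/
noncomputable def dg (a : ∀ j, (M j).toStarSubalgebra) (C : ℝ) (h : ∀ j, ‖a j‖ ≤ C) :
    (vsum M).toStarSubalgebra :=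
  ⟨diag (fun j => (a j).1) C h, diag_mem (fun j => (a j).2) C h⟩

lemma down_dg (a : ∀ j, (M j).toStarSubalgebra) (C : ℝ) (h : ∀ j, ‖a j‖ ≤ C) (j : ℕ) :
    down M j (dg M a C h) = a j :=
  Subtype.ext (cmp_diag _ C h j)

lemma norm_dg_le (a : ∀ j, (M j).toStarSubalgebra) (C : ℝ) (h : ∀ j, ‖a j‖ ≤ C) :
    ‖dg M a C h‖ ≤ C := by
  rw [norm_val]
  exact norm_diag_le _ C h

/-- the direct sum is an `ℓ^∞`-direct sum -/
noncomputable def vglue : Glue (fun j => (M j).toStarSubalgebra) (vsum M).toStarSubalgebra where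
  dn := down M
  up := up M
  glue := dg M
  norm_dn := norm_down_le M
  norm_up := norm_up_le M
  inj := fun _ _ h => down_ext M h
  dn_glue := down_dg M
  norm_glue := norm_dg_le M
  dn_up := down_up M
  dn_mul := down_mul M
  up_mul := up_mul M

end Vale.Agent.P082.H304
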